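import Vale.Agent.P358.H697.Kap

set_option autoImplicit false

/-!
# P358 / H697 / Blk: the norm compression inequality
-/

namespace Vale.Agent.P358.SC

open Matrix Real Set
open scoped ComplexOrder

variable {ι : Type} [Fintype ι] [DecidableEq ι]

theorem col_le (p : ι → ℝ) (Y Q : Matrix ι ι ℂ)
    (hω : (fromBlocks (diagonal fun k => (p k : ℂ)) Y Yᴴ Q).PosSemidef) (j : ι) :
    ∑ k, ‖Y k j‖ ^ 2 / p k ≤ (Q j j).re := by
  set x : ι → ℂ := fun k => - (Y k j / p k) with hx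
  have h := (Complex.nonneg_iff.mp (hω.dotProduct_mulVec_nonneg
    (Sum.elim x (Pi.single j 1)))).1
  rw [fromBlocks_mulVec, Sum.elim_comp_inl, Sum.elim_comp_inr, Function.star_sumElim,
    sumElim_dotProduct_sumElim, mulVec_single_one, mulVec_single_one] at h
  have h2 : (star (Pi.single j 1 : ι → ℂ)) = Pi.single j 1 := by
    ext i
    by_cases h : i = j
    · subst h; simp
    · simp [h]
  rw [h2, single_one_dotProduct, Pi.add_apply, Complex.add_re, Complex.add_re,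
    dotProduct, Complex.re_sum, mulVec, dotProduct, Complex.re_sum, ← add_assoc,
    ← Finset.sum_add_distrib] at h
  have h3 : ∀ k, (star x k * ((diagonal (fun k => (p k : ℂ)) *ᵥ x + Y.col j) k)).re +
      (Yᴴ j k * x k).re = - (‖Y k j‖ ^ 2 / p k) := by
    intro k
    rw [Pi.add_apply, mulVec_diagonal, Pi.star_apply, conjTranspose_apply, hx]
    have h5 : star (Y k j) * -(Y k j / p k) = ((-(‖Y k j‖ ^ 2 / p k) : ℝ) : ℂ) := by
      push_cast
      rw [← Complex.conj_mul', RCLike.star_def]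
      ring
    simp only
    rw [h5, Complex.ofReal_re]
    rcases eq_or_ne (p k) 0 with h0 | h0
    · simp [h0]
    · have h6 : (p k : ℂ) ≠ 0 := by exact_mod_cast h0
      have h7 : (p k : ℂ) * -(Y k j / p k) + Y.col j k = 0 := by
        rw [col_apply]
        field_simp
        ring
      rw [h7]
      simp
  rw [Finset.sum_congr rfl fun k _ => h3 k, Finset.sum_neg_distrib] at h
  have h4 : (Q.col j j).re = (Q j j).re := rfl
  linarith

/-- the power version of `sum_q_le`, both blocks diagonal -/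
theorem sum_qpow_diag {s : ℝ} (hs : 1 ≤ s) (p μ : ι → ℝ) (hp : ∀ k, 0 ≤ p k) (hμ : ∀ k, 0 ≤ μ k)
    (Y : Matrix ι ι ℂ)
    (hω : (fromBlocks (diagonal fun k => (p k : ℂ)) Y Yᴴ
      (diagonal fun k => (μ k : ℂ))).PosSemidef) :
    ∑ k, ((∑ j, ‖Y k j‖ ^ 2) / p k) ^ s ≤ ∑ j, μ j ^ s := by
  have h1 : ∀ j, ∑ k, ‖Y k j‖ ^ 2 / p k ≤ μ j := fun j => by
    have := col_le p Y _ hω j
    simpa using this
  have h2 : ∀ k, ∑ j, ‖Y k j‖ ^ 2 / μ j ≤ p k := fun k => by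
    have hs : (fromBlocks (diagonal fun k => (μ k : ℂ)) Yᴴ Yᴴᴴ
        (diagonal fun k => (p k : ℂ))).PosSemidef := by
      have := hω.submatrix (Sum.swap : ι ⊕ ι → ι ⊕ ι)
      rw [fromBlocks_submatrix_sum_swap_sum_swap] at this
      rw [conjTranspose_conjTranspose]
      exact this
    have := col_le μ Yᴴ _ hs k
    simpa [conjTranspose_apply] using this
  set W : ι → ι → ℝ := fun k j => ‖Y k j‖ ^ 2 / p k / μ j with hW
  have hW0 : ∀ k j, 0 ≤ W k j := fun k j =>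
    div_nonneg (div_nonneg (by positivity) (hp k)) (hμ j)
  have hterm : ∀ k j, ‖Y k j‖ ^ 2 / p k = W k j * μ j := by
    intro k j
    rcases eq_or_ne (μ j) 0 with h0 | h0
    · have h3 := h1 j
      rw [h0] at h3 ⊢
      rw [mul_zero]
      have h4 : ∀ k ∈ Finset.univ, 0 ≤ ‖Y k j‖ ^ 2 / p k := fun k _ =>
        div_nonneg (by positivity) (hp k)
      have h5 := (Finset.sum_eq_zero_iff_of_nonneg h4).1
        (le_antisymm h3 (Finset.sum_nonneg h4)) k (Finset.mem_univ _)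
      exact h5
    · rw [hW]
      field_simp
  have hrow : ∀ k, ∑ j, W k j ≤ 1 := by
    intro k
    have e : ∑ j, W k j = (∑ j, ‖Y k j‖ ^ 2 / μ j) / p k := by
      rw [Finset.sum_div]
      exact Finset.sum_congr rfl fun j _ => by rw [hW, div_right_comm]
    rw [e]
    exact div_le_one_of_le₀ (h2 k) (hp k)
  have hcol : ∀ j, ∑ k, W k j ≤ 1 := by
    intro j
    have e : ∑ k, W k j = (∑ k, ‖Y k j‖ ^ 2 / p k) / μ j := by
      rw [Finset.sum_div]
    rw [e]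
    exact div_le_one_of_le₀ (h1 j) (hμ j)
  calc ∑ k, ((∑ j, ‖Y k j‖ ^ 2) / p k) ^ s = ∑ k, (∑ j, W k j * μ j) ^ s := by
        refine Finset.sum_congr rfl fun k _ => ?_
        congr 1
        rw [Finset.sum_div]
        exact Finset.sum_congr rfl fun j _ => hterm k j
    _ ≤ ∑ k, ∑ j, W k j * μ j ^ s := Finset.sum_le_sum fun k _ =>
        subprob_jensen _ hs _ _ (fun j _ => hW0 k j) (hrow k) (fun j _ => hμ j)
    _ = ∑ j, (∑ k, W k j) * μ j ^ s := by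
        simp only [Finset.sum_mul]
        exact Finset.sum_comm
    _ ≤ ∑ j, 1 * μ j ^ s := Finset.sum_le_sum fun j _ =>
        mul_le_mul_of_nonneg_right (hcol j) (Real.rpow_nonneg (hμ j) _)
    _ = ∑ j, μ j ^ s := by simp

/-- the power version of `sum_q_le` -/
theorem sum_qpow_le {s : ℝ} (hs : 1 ≤ s) (p : ι → ℝ) (hp : ∀ k, 0 ≤ p k)
    (Y Q : Matrix ι ι ℂ) (hQ : Q.PosSemidef)
    (hω : (fromBlocks (diagonal fun k => (p k : ℂ)) Y Yᴴ Q).PosSemidef) :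
    ∑ k, ((∑ j, ‖Y k j‖ ^ 2) / p k) ^ s ≤ tp s Q := by
  obtain ⟨V, h1, h2, h3⟩ := exists_diag' hQ.1
  set μ := hQ.1.eigenvalues with hμd
  set Z : Matrix (ι ⊕ ι) (ι ⊕ ι) ℂ := fromBlocks 1 0 0 Vᴴ with hZ
  have hQd : Vᴴ * Q * V = diagonal (fun i => (μ i : ℂ)) := by
    conv_lhs => rw [h3]
    calc Vᴴ * (V * diagonal (fun i => (μ i : ℂ)) * Vᴴ) * V
        = (Vᴴ * V) * diagonal (fun i => (μ i : ℂ)) * (Vᴴ * V) := by
          simp only [Matrix.mul_assoc]
      _ = _ := by rw [h2]; simp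
  have c1 : Z * fromBlocks (diagonal fun k => (p k : ℂ)) Y Yᴴ Q * Zᴴ
      = fromBlocks (diagonal (fun i => (p i : ℂ))) (Y * V) (Y * V)ᴴ
        (diagonal (fun i => (μ i : ℂ))) := by
    rw [hZ, fromBlocks_conjTranspose, fromBlocks_multiply, fromBlocks_multiply]
    simp [hQd, conjTranspose_mul]
  have hω' := hω.mul_mul_conjTranspose_same Z
  rw [c1] at hω'
  have h4 := sum_qpow_diag hs p μ hp hQ.eigenvalues_nonneg (Y * V) hω'
  rw [tp_eq hQ.1]
  refine le_trans (le_of_eq ?_) h4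
  refine Finset.sum_congr rfl fun k _ => ?_
  congr 2
  -- row norms are unchanged
  have e : ∀ (M : Matrix ι ι ℂ) (k : ι), ((∑ j, ‖M k j‖ ^ 2 : ℝ) : ℂ) = (M * Mᴴ) k k := by
    intro M k
    have := conj_diag_apply M (fun _ => 1) k
    simpa using this.symm
  have e1 := e Y k
  have e3 := e (Y * V) k
  rw [conjTranspose_mul, Matrix.mul_assoc, ← Matrix.mul_assoc V, h1, Matrix.one_mul, ← e1] at e3
  exact_mod_cast e3.symm

/-- the `s`-norm -/
noncomputable def nm (s : ℝ) (X : Matrix ι ι ℂ) : ℝ := (tp s X) ^ (1 / s)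

theorem nm_nonneg {s : ℝ} {X : Matrix ι ι ℂ} (hX : X.PosSemidef) : 0 ≤ nm s X :=
  Real.rpow_nonneg (tp_nonneg hX) _

theorem nm_pow {s : ℝ} (hs : s ≠ 0) {X : Matrix ι ι ℂ} (hX : X.PosSemidef) :
    nm s X ^ s = tp s X := by
  unfold nm
  rw [← Real.rpow_mul (tp_nonneg hX), one_div, inv_mul_cancel₀ hs, Real.rpow_one]

theorem nm_smul {s : ℝ} (hs : s ≠ 0) {X : Matrix ι ι ℂ} (hX : X.PosSemidef) {c : ℝ}
    (hc : 0 ≤ c) : nm s ((c : ℂ) • X) = c * nm s X := by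
  unfold nm
  rw [tp_smul hX hc, Real.mul_rpow (Real.rpow_nonneg hc _) (tp_nonneg hX),
    ← Real.rpow_mul hc, mul_one_div, div_self hs, Real.rpow_one]

theorem tr_block (A B C D : Matrix ι ι ℂ) :
    (fromBlocks A B C D).trace = A.trace + D.trace := by
  simp [trace, Fintype.sum_sum_type]

/-- The key estimate when the upper left block is diagonal. -/
theorem T0_diag {s : ℝ} (hs1 : 1 < s) (hs2 : s < 2) (p : ι → ℝ) (hp : ∀ k, 0 ≤ p k)
    (Y Q R : Matrix ι ι ℂ)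
    (hω : (fromBlocks (diagonal fun k => (p k : ℂ)) Y Yᴴ Q).PosSemidef) (hQ : Q.PosSemidef)
    (hR : R.PosSemidef) :
    tp s (fromBlocks (diagonal (fun k => (p k : ℂ)) + R) Y Yᴴ Q) ≤
      tp s Q + tp s R + kap s ((∑ k, p k ^ s) ^ (1 / s)) (nm s R) (nm s Q) := by
  have hs0 : s ≠ 0 := by linarith
  set O := fromBlocks (diagonal (fun k => (p k : ℂ)) + R) Y Yᴴ Q with hOdef
  have hO : O.PosSemidef := posSemidef_block_add hω hR
  set q : ι → ℝ := fun k => (∑ j, ‖Y k j‖ ^ 2) / p k with hq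
  set r : ι → ℝ := fun k => (R k k).re with hr
  have hq0 : ∀ k, 0 ≤ q k := fun k =>
    div_nonneg (Finset.sum_nonneg fun j _ => by positivity) (hp k)
  have hr0 : ∀ k, 0 ≤ r k := fun k => (Complex.le_def.1 (hR.diag_nonneg (i := k))).1
  have H1 := hasPow_matrix hs1 hs2 hO
  have H2 := ((hasPow_matrix hs1 hs2 hQ).add (hasPow_matrix hs1 hs2 hR)).add
    (HasPow.sum Finset.univ
      (F := fun k t => p k / t - Real.log (1 + t * p k / ((t + r k) * (t + q k))))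
      (h := fun k => kap s (p k) (r k) (q k))
      (fun k _ => hasPow_kap hs1 hs2 (hp k) (hr0 k) (hq0 k)))
  have eT : O.trace.re = Q.trace.re + R.trace.re + ∑ k, p k := by
    rw [hOdef, tr_block, trace_add, trace_diagonal]
    simp only [Complex.add_re, Complex.re_sum, Complex.ofReal_re]
    ring
  have key := H1.mono hs1 hs2 H2 fun t ht => by
    have a1 := det_pos' hQ ht
    have a2 := det_pos' hR ht
    have a4 : ∀ k, 0 < 1 + t * p k / ((t + r k) * (t + q k)) := fun k => by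
      have := hp k
      have := hr0 k
      have := hq0 k
      positivity
    have a3 := pointwise p hp Y Q R hω hR ht
    have a5 : ∏ k, (1 + t * p k / ((t + (∑ j, ‖Y k j‖ ^ 2) / p k) * (t + (R k k).re)))
        = ∏ k, (1 + t * p k / ((t + r k) * (t + q k))) := by
      refine Finset.prod_congr rfl fun k _ => ?_
      rw [mul_comm (t + r k)]
    rw [a5] at a3
    have a6 : ld Q t + ld R t + ∑ k, Real.log (1 + t * p k / ((t + r k) * (t + q k))) ≤
        ld O t := by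
      unfold ld
      rw [← Real.log_prod (fun k _ => (a4 k).ne'), ← Real.log_mul a1.ne' a2.ne',
        ← Real.log_mul (by positivity) (Finset.prod_ne_zero_iff.2 fun k _ => (a4 k).ne')]
      refine Real.log_le_log ?_ a3
      exact mul_pos (mul_pos a1 a2) (Finset.prod_pos fun k _ => a4 k)
    have a7 : (Fintype.card (ι ⊕ ι) : ℝ) = Fintype.card ι + Fintype.card ι := by
      simp [Fintype.card_sum]
    have a8 : ∑ k, (p k / t - Real.log (1 + t * p k / ((t + r k) * (t + q k)))) =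
        (∑ k, p k) / t - ∑ k, Real.log (1 + t * p k / ((t + r k) * (t + q k))) := by
      rw [Finset.sum_sub_distrib, Finset.sum_div]
    rw [a8, eT, a7]
    have a9 : (Q.trace.re + R.trace.re + ∑ k, p k) / t =
        Q.trace.re / t + R.trace.re / t + (∑ k, p k) / t := by ring
    rw [a9]
    linarith
  have sc := kap_sum Finset.univ hs1 hs2 p r q (fun k _ => hp k) (fun k _ => hr0 k)
    (fun k _ => hq0 k) (P := (∑ k, p k ^ s) ^ (1 / s)) (R := nm s R) (Q := nm s Q)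
    (Real.rpow_nonneg (Finset.sum_nonneg fun k _ => Real.rpow_nonneg (hp k) _) _)
    (nm_nonneg hR) (nm_nonneg hQ)
    (by
      rw [← Real.rpow_mul (Finset.sum_nonneg fun k _ => Real.rpow_nonneg (hp k) _), one_div,
        inv_mul_cancel₀ hs0, Real.rpow_one])
    (by rw [nm_pow hs0 hR]; exact sum_diag_le hs1.le hR)
    (by rw [nm_pow hs0 hQ]; exact sum_qpow_le hs1.le p hp Y Q hQ hω)
  linarith

/-- **The key estimate.** -/
theorem T0 {s : ℝ} (hs1 : 1 < s) (hs2 : s < 2) {P Y Q R : Matrix ι ι ℂ}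
    (hω : (fromBlocks P Y Yᴴ Q).PosSemidef) (hR : R.PosSemidef) :
    tp s (fromBlocks (P + R) Y Yᴴ Q) ≤
      e2 s (nm s P + nm s R + nm s Q) (nm s R * nm s Q) := by
  have hs0 : s ≠ 0 := by linarith
  have hP : P.PosSemidef := hω.submatrix (Sum.inl : ι → ι ⊕ ι)
  have hQ : Q.PosSemidef := hω.submatrix (Sum.inr : ι → ι ⊕ ι)
  obtain ⟨U, h1, h2, h3⟩ := exists_diag' hP.1
  have hd := hP.eigenvalues_nonneg
  have eS : nm s P = (∑ i, hP.1.eigenvalues i ^ s) ^ (1 / s) := by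
    unfold nm
    rw [tp_eq hP.1]
  rw [eS]
  set d := hP.1.eigenvalues with hdd
  set V : Matrix (ι ⊕ ι) (ι ⊕ ι) ℂ := fromBlocks Uᴴ 0 0 1 with hV
  have hVV' : Vᴴ * V = 1 := by
    rw [hV, fromBlocks_conjTranspose, fromBlocks_multiply]
    simp [h1]
  have hPd : Uᴴ * P * U = diagonal (fun i => (d i : ℂ)) := by
    conv_lhs => rw [h3]
    calc Uᴴ * (U * diagonal (fun i => (d i : ℂ)) * Uᴴ) * U
        = (Uᴴ * U) * diagonal (fun i => (d i : ℂ)) * (Uᴴ * U) := by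
          simp only [Matrix.mul_assoc]
      _ = _ := by rw [h2]; simp
  have c1 : V * fromBlocks P Y Yᴴ Q * Vᴴ
      = fromBlocks (diagonal (fun i => (d i : ℂ))) (Uᴴ * Y) (Uᴴ * Y)ᴴ Q := by
    rw [hV, fromBlocks_conjTranspose, fromBlocks_multiply, fromBlocks_multiply]
    simp [hPd, conjTranspose_mul]
  have c2 : V * fromBlocks (P + R) Y Yᴴ Q * Vᴴ
      = fromBlocks (diagonal (fun i => (d i : ℂ)) + Uᴴ * R * U) (Uᴴ * Y) (Uᴴ * Y)ᴴ Q := by
    rw [hV, fromBlocks_conjTranspose, fromBlocks_multiply, fromBlocks_multiply]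
    simp [hPd, conjTranspose_mul, Matrix.mul_add, Matrix.add_mul]
  have hω' := hω.mul_mul_conjTranspose_same V
  rw [c1] at hω'
  have hR' : (Uᴴ * R * U).PosSemidef := by
    have := hR.mul_mul_conjTranspose_same Uᴴ
    simpa using this
  have h2' : Uᴴᴴ * Uᴴ = 1 := by rw [conjTranspose_conjTranspose]; exact h1
  have vR : tp s (Uᴴ * R * U) = tp s R := by
    have := tp_conj (s := s) h2' hR.1
    simpa using this
  have vR' : nm s (Uᴴ * R * U) = nm s R := by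
    unfold nm
    rw [vR]
  have main := T0_diag hs1 hs2 d hd (Uᴴ * Y) Q (Uᴴ * R * U) hω' hQ hR'
  rw [vR, vR', ← c2, tp_conj hVV' (posSemidef_block_add hω hR).1] at main
  unfold kap at main
  rw [nm_pow hs0 hR, nm_pow hs0 hQ] at main
  linarith

/-- Scaled form of the key estimate. -/
theorem T0_scaled {s : ℝ} (hs1 : 1 < s) (hs2 : s < 2) {P Y Q : Matrix ι ι ℂ}
    (hω : (fromBlocks P Y Yᴴ Q).PosSemidef)
    {α β τ l : ℝ} (hα : 0 ≤ α) (hβ : 0 ≤ β) (hτ : 0 ≤ τ) (hl : 0 ≤ l) (h : α * τ = l ^ 2) :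
    tp s (fromBlocks ((α : ℂ) • P + (β : ℂ) • Q) ((l : ℂ) • Y) ((l : ℂ) • Yᴴ) ((τ : ℂ) • Q)) ≤
      e2 s (α * nm s P + β * nm s Q + τ * nm s Q) (β * nm s Q * (τ * nm s Q)) := by
  have hs0 : s ≠ 0 := by linarith
  have hP : P.PosSemidef := hω.submatrix (Sum.inl : ι → ι ⊕ ι)
  have hQ : Q.PosSemidef := hω.submatrix (Sum.inr : ι → ι ⊕ ι)
  have h1 := block_smul hω hα hτ hl h
  have h2 := T0 hs1 hs2 h1 (R := (β : ℂ) • Q) (hQ.smul (by exact_mod_cast hβ))
  have e1 : ((l : ℂ) • Y)ᴴ = (l : ℂ) • Yᴴ := by simp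
  rw [e1, nm_smul hs0 hP hα, nm_smul hs0 hQ hβ, nm_smul hs0 hQ hτ] at h2
  exact h2

/-- Swapped form. -/
theorem T0_scaled' {s : ℝ} (hs1 : 1 < s) (hs2 : s < 2) {P Y Q : Matrix ι ι ℂ}
    (hω : (fromBlocks P Y Yᴴ Q).PosSemidef)
    {α β τ l : ℝ} (hα : 0 ≤ α) (hβ : 0 ≤ β) (hτ : 0 ≤ τ) (hl : 0 ≤ l) (h : α * τ = l ^ 2) :
    tp s (fromBlocks ((α : ℂ) • P) ((l : ℂ) • Y) ((l : ℂ) • Yᴴ) ((β : ℂ) • P + (τ : ℂ) • Q)) ≤
      e2 s (α * nm s P + β * nm s P + τ * nm s Q) (α * nm s P * (β * nm s P)) := by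
  have hsw : (fromBlocks Q Yᴴ Yᴴᴴ P).PosSemidef := by
    have := hω.submatrix (Sum.swap : ι ⊕ ι → ι ⊕ ι)
    rw [fromBlocks_submatrix_sum_swap_sum_swap] at this
    rw [conjTranspose_conjTranspose]
    exact this
  have h1 := T0_scaled hs1 hs2 hsw hτ hβ hα hl (by rw [mul_comm]; exact h)
  rw [conjTranspose_conjTranspose] at h1
  have h2 := tp_submatrix (s := s) (Equiv.sumComm ι ι)
    (fromBlocks ((τ : ℂ) • Q + (β : ℂ) • P) ((l : ℂ) • Yᴴ) ((l : ℂ) • Y) ((α : ℂ) • P))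
  have e3 : (fromBlocks ((τ : ℂ) • Q + (β : ℂ) • P) ((l : ℂ) • Yᴴ) ((l : ℂ) • Y)
      ((α : ℂ) • P)).submatrix (Equiv.sumComm ι ι) (Equiv.sumComm ι ι)
      = fromBlocks ((α : ℂ) • P) ((l : ℂ) • Y) ((l : ℂ) • Yᴴ) ((β : ℂ) • P + (τ : ℂ) • Q) := by
    have := fromBlocks_submatrix_sum_swap_sum_swap ((τ : ℂ) • Q + (β : ℂ) • P) ((l : ℂ) • Yᴴ)
      ((l : ℂ) • Y) ((α : ℂ) • P)
    rw [add_comm ((β : ℂ) • P)]
    exact this
  rw [← e3, h2]
  have e4 : τ * nm s Q + β * nm s P + α * nm s P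
      = α * nm s P + β * nm s P + τ * nm s Q := by ring
  have e5 : β * nm s P * (α * nm s P) = α * nm s P * (β * nm s P) := by ring
  rw [e4, e5] at h1
  exact h1

/-- **Norm compression for the maps of amplitude-damping type.** -/
theorem Zs {s : ℝ} (hs1 : 1 < s) (hs2 : s < 2) {c1 c2 c3 c4 l : ℝ} (h1 : 0 ≤ c1) (h2 : 0 ≤ c2)
    (h3 : 0 ≤ c3) (h4 : 0 ≤ c4) (hl : 0 ≤ l) (hc : c1 * c4 - l ^ 2 = c2 * c3)
    {P Y Q : Matrix ι ι ℂ} (hω : (fromBlocks P Y Yᴴ Q).PosSemidef) :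
    tp s (fromBlocks ((c1 : ℂ) • P + (c2 : ℂ) • Q) ((l : ℂ) • Y) ((l : ℂ) • Yᴴ)
        ((c3 : ℂ) • P + (c4 : ℂ) • Q)) ≤
      e2 s ((c1 * nm s P + c2 * nm s Q) + (c3 * nm s P + c4 * nm s Q))
        (dt c1 c2 c3 c4 l (nm s P) (nm s Q)) := by
  have hs0 : s ≠ 0 := by linarith
  have hP : P.PosSemidef := hω.submatrix (Sum.inl : ι → ι ⊕ ι)
  have hQ : Q.PosSemidef := hω.submatrix (Sum.inr : ι → ι ⊕ ι)
  have hp0 : 0 ≤ nm s P := nm_nonneg hP
  have hq0 : 0 ≤ nm s Q := nm_nonneg hQ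
  have trz : ∀ {X : Matrix ι ι ℂ}, X.PosSemidef → nm s X = 0 → X = 0 := by
    intro X hX h
    have h5 : tp s X = 0 := by rw [← nm_pow hs0 hX, h, Real.zero_rpow hs0]
    rw [tp_eq hX.1] at h5
    have h6 := (Finset.sum_eq_zero_iff_of_nonneg
      (fun i _ => Real.rpow_nonneg (hX.eigenvalues_nonneg i) s)).1 h5
    refine hX.trace_eq_zero_iff.1 ?_
    rw [hX.1.trace_eq_sum_eigenvalues]
    refine Finset.sum_eq_zero fun i hi => ?_
    rw [(Real.rpow_eq_zero (hX.eigenvalues_nonneg i) hs0).1 (h6 i hi)]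
    simp
  obtain ⟨p, hpdef⟩ : ∃ p, p = nm s P := ⟨_, rfl⟩
  obtain ⟨q, hqdef⟩ : ∃ q, q = nm s Q := ⟨_, rfl⟩
  rw [← hpdef] at hp0
  rw [← hqdef] at hq0
  rw [← hpdef, ← hqdef]
  rcases hp0.eq_or_lt with hp | hp
  · -- `P = 0`
    have hP0 : P = 0 := trz hP (by rw [← hpdef]; exact hp.symm)
    have hY0 : Y = 0 := off_diag_zero hω (Or.inl hP0)
    have h := T0_scaled hs1 hs2 hω (le_refl 0) h2 h4 (le_refl 0) (by simp)
    rw [← hpdef, ← hqdef, ← hp] at h
    have e1 : 0 * 0 + c2 * q + c4 * q = (c1 * 0 + c2 * q) + (c3 * 0 + c4 * q) := by ring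
    have e3 : c2 * q * (c4 * q) = dt c1 c2 c3 c4 l 0 q := by unfold dt; ring
    rw [e1, e3] at h
    rw [← hp]
    rw [hP0, hY0] at h ⊢
    simp only [Complex.ofReal_zero, smul_zero, zero_add, conjTranspose_zero] at h ⊢
    exact h
  rcases hq0.eq_or_lt with hq | hq
  · have hQ0 : Q = 0 := trz hQ (by rw [← hqdef]; exact hq.symm)
    have hY0 : Y = 0 := off_diag_zero hω (Or.inr hQ0)
    have h := T0_scaled' hs1 hs2 hω h1 h3 (le_refl 0) (le_refl 0) (by simp)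
    rw [← hpdef, ← hqdef, ← hq] at h
    have e1 : c1 * p + c3 * p + 0 * 0 = (c1 * p + c2 * 0) + (c3 * p + c4 * 0) := by ring
    have e3 : c1 * p * (c3 * p) = dt c1 c2 c3 c4 l p 0 := by unfold dt; ring
    rw [e1, e3] at h
    rw [← hq]
    rw [hQ0, hY0] at h ⊢
    simp only [Complex.ofReal_zero, smul_zero, add_zero, conjTranspose_zero] at h ⊢
    exact h
  rcases h3.eq_or_lt with h3' | h3'
  · -- `c3 = 0`
    have hl4 : c1 * c4 = l ^ 2 := by rw [← h3'] at hc; linarith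
    have h := T0_scaled hs1 hs2 hω h1 h2 h4 hl hl4
    rw [← hpdef, ← hqdef] at h
    have e1 : c1 * p + c2 * q + c4 * q = (c1 * p + c2 * q) + (0 * p + c4 * q) := by ring
    have e3 : c2 * q * (c4 * q) = dt c1 c2 0 c4 l p q := by
      unfold dt; rw [← hl4]; ring
    rw [e1, e3] at h
    rw [← h3']
    simp only [Complex.ofReal_zero, zero_smul, zero_add] at h ⊢
    simpa using h
  rcases h2.eq_or_lt with h2' | h2'
  · have hl1 : c1 * c4 = l ^ 2 := by rw [← h2'] at hc; linarith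
    have h := T0_scaled' hs1 hs2 hω h1 h3 h4 hl hl1
    rw [← hpdef, ← hqdef] at h
    have e1 : c1 * p + c3 * p + c4 * q = (c1 * p + 0 * q) + (c3 * p + c4 * q) := by ring
    have e3 : c1 * p * (c3 * p) = dt c1 0 c3 c4 l p q := by
      unfold dt; rw [← hl1]; ring
    rw [e1, e3] at h
    rw [← h2']
    simp only [Complex.ofReal_zero, zero_smul, add_zero] at h ⊢
    simpa using h
  -- the outputs have positive mass: `c4 > 0` and `c1 > 0`
  have hc14 : 0 < c1 * c4 := by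
    have := mul_pos h2' h3'
    nlinarith [sq_nonneg l]
  have hc1 : 0 < c1 := by
    rcases h1.eq_or_lt with h | h
    · rw [← h, zero_mul] at hc14
      exact absurd hc14 (lt_irrefl _)
    · exact h
  have hc4 : 0 < c4 := by
    rcases h4.eq_or_lt with h | h
    · rw [← h, mul_zero] at hc14
      exact absurd hc14 (lt_irrefl _)
    · exact h
  -- main case
  set D := dt c1 c2 c3 c4 l p q with hD
  obtain ⟨x, hx⟩ : ∃ x, x = c1 * p + c2 * q := ⟨_, rfl⟩
  obtain ⟨y, hy⟩ : ∃ y, y = c3 * p + c4 * q := ⟨_, rfl⟩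
  have hx0 : 0 < x := by rw [hx]; positivity
  have hy0 : 0 < y := by rw [hy]; positivity
  have hD1 : D = x * y - l ^ 2 * (p * q) := by rw [hD, hx, hy]; rfl
  have hD2 : D = c1 * c3 * p ^ 2 + 2 * (c2 * c3) * (p * q) + c2 * c4 * q ^ 2 := by
    rw [hD1, hx, hy]; linear_combination (p * q) * hc
  have hD0 : 0 < D := by rw [hD2]; positivity
  rw [← hx, ← hy]
  have i1 : c2 * q * y / D * (l ^ 2 * q / y) + c3 * p * x / D * (x / p) = c1 := by
    field_simp
    rw [hD2, hx]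
    linear_combination -(c2 * q ^ 2) * hc
  have i2 : c2 * q * y / D * (D / (q * y)) = c2 := by field_simp
  have i3 : c2 * q * y / D + c3 * p * x / D = 1 := by
    rw [← add_div, div_eq_one_iff_eq hD0.ne', hD2, hx, hy]
    ring
  have i4 : c3 * p * x / D * (D / (p * x)) = c3 := by field_simp
  have i5 : c2 * q * y / D * (y / q) + c3 * p * x / D * (l ^ 2 * p / x) = c4 := by
    field_simp
    rw [hD2, hy]
    linear_combination -(c3 * p ^ 2) * hc
  have t1 : l ^ 2 * q / y * p + D / (q * y) * q + y / q * q = x + y := by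
    field_simp
    rw [hD1]
    ring
  have t2 : D / (q * y) * q * (y / q * q) = D := by field_simp
  have t3 : x / p * p + D / (p * x) * p + l ^ 2 * p / x * q = x + y := by
    field_simp
    rw [hD1]
    ring
  have t4 : x / p * p * (D / (p * x) * p) = D := by field_simp
  obtain ⟨m0, hm0⟩ : ∃ m, m = c2 * q * y / D := ⟨_, rfl⟩
  obtain ⟨m1, hm1⟩ : ∃ m, m = c3 * p * x / D := ⟨_, rfl⟩
  obtain ⟨α, hα⟩ : ∃ m, m = l ^ 2 * q / y := ⟨_, rfl⟩
  obtain ⟨β, hβ⟩ : ∃ m, m = D / (q * y) := ⟨_, rfl⟩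
  obtain ⟨τ, hτ⟩ : ∃ m, m = y / q := ⟨_, rfl⟩
  obtain ⟨α', hα'⟩ : ∃ m, m = x / p := ⟨_, rfl⟩
  obtain ⟨β', hβ'⟩ : ∃ m, m = D / (p * x) := ⟨_, rfl⟩
  obtain ⟨τ', hτ'⟩ : ∃ m, m = l ^ 2 * p / x := ⟨_, rfl⟩
  have pm0 : 0 ≤ m0 := by rw [hm0]; positivity
  have pm1 : 0 ≤ m1 := by rw [hm1]; positivity
  have pα : 0 ≤ α := by rw [hα]; positivity
  have pβ : 0 ≤ β := by rw [hβ]; positivity
  have pτ : 0 ≤ τ := by rw [hτ]; positivity
  have pα' : 0 ≤ α' := by rw [hα']; positivity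
  have pβ' : 0 ≤ β' := by rw [hβ']; positivity
  have pτ' : 0 ≤ τ' := by rw [hτ']; positivity
  have l1 : α * τ = l ^ 2 := by rw [hα, hτ]; field_simp
  have l2 : α' * τ' = l ^ 2 := by rw [hα', hτ']; field_simp
  rw [← hm0, ← hm1, ← hα, ← hα'] at i1
  rw [← hm0, ← hβ] at i2
  rw [← hm0, ← hm1] at i3
  rw [← hm1, ← hβ'] at i4
  rw [← hm0, ← hm1, ← hτ, ← hτ'] at i5
  rw [← hα, ← hβ, ← hτ] at t1
  rw [← hβ, ← hτ] at t2
  rw [← hα', ← hβ', ← hτ'] at t3
  rw [← hα', ← hβ'] at t4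
  clear hm0 hm1 hα hβ hτ hα' hβ' hτ'
  have k0 := T0_scaled hs1 hs2 hω pα pβ pτ hl l1
  have k1 := T0_scaled' hs1 hs2 hω pα' pβ' pτ' hl l2
  rw [← hpdef, ← hqdef, t1, t2] at k0
  rw [← hpdef, ← hqdef, t3, t4] at k1
  have q0 : (fromBlocks ((α : ℂ) • P + (β : ℂ) • Q) ((l : ℂ) • Y) ((l : ℂ) • Yᴴ)
      ((τ : ℂ) • Q)).PosSemidef := by
    have := posSemidef_block_add (block_smul hω pα pτ hl l1) (R := (β : ℂ) • Q)
      (hQ.smul (by exact_mod_cast pβ))
    have e1 : ((l : ℂ) • Y)ᴴ = (l : ℂ) • Yᴴ := by simp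
    rw [e1] at this
    exact this
  have q1 : (fromBlocks ((α' : ℂ) • P) ((l : ℂ) • Y) ((l : ℂ) • Yᴴ)
      ((β' : ℂ) • P + (τ' : ℂ) • Q)).PosSemidef := by
    have := posSemidef_block_add_right (block_smul hω pα' pτ' hl l2) (R := (β' : ℂ) • P)
      (hP.smul (by exact_mod_cast pβ'))
    have e1 : ((l : ℂ) • Y)ᴴ = (l : ℂ) • Yᴴ := by simp
    rw [e1, add_comm] at this
    exact this
  have hconc := tp_convex hs1.le q0 q1 pm0 pm1 i3
  have hmat : (m0 : ℂ) • fromBlocks ((α : ℂ) • P + (β : ℂ) • Q) ((l : ℂ) • Y) ((l : ℂ) • Yᴴ)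
        ((τ : ℂ) • Q)
      + (m1 : ℂ) • fromBlocks ((α' : ℂ) • P) ((l : ℂ) • Y) ((l : ℂ) • Yᴴ)
        ((β' : ℂ) • P + (τ' : ℂ) • Q)
      = fromBlocks ((c1 : ℂ) • P + (c2 : ℂ) • Q) ((l : ℂ) • Y) ((l : ℂ) • Yᴴ)
        ((c3 : ℂ) • P + (c4 : ℂ) • Q) := by
    rw [fromBlocks_smul, fromBlocks_smul, fromBlocks_add]
    have e3 : (m0 : ℂ) + (m1 : ℂ) = 1 := by rw [← Complex.ofReal_add, i3]; simp
    rw [← i1, ← i2, ← i4, ← i5]
    congr 1
    · push_cast
      module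
    · rw [← add_smul, e3, one_smul]
    · rw [← add_smul, e3, one_smul]
    · push_cast
      module
  rw [hmat] at hconc
  have w1 := mul_le_mul_of_nonneg_left k0 pm0
  have w2 := mul_le_mul_of_nonneg_left k1 pm1
  refine hconc.trans ((add_le_add w1 w2).trans (le_of_eq ?_))
  rw [← add_mul, i3, one_mul]

end Vale.Agent.P358.SC
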