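import Vale.Agent.P358.H697.Ten
import Mathlib.Algebra.Order.Chebyshev

set_option autoImplicit false

/-!
# P358 / H697 / Code: pinching and the one-shot converse bound
-/

namespace Vale.Agent.P358.SC

open Matrix Real Set
open scoped ComplexOrder

variable {ι κ : Type} [Fintype ι] [DecidableEq ι] [Fintype κ] [DecidableEq κ]

/-- the pinching along the level sets of `w` -/
noncomputable def Pin (w : ι → κ) (X : Matrix ι ι ℂ) : Matrix ι ι ℂ :=
  Matrix.of fun x y => if w x = w y then X x y else 0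

omit [DecidableEq ι] in
theorem exists_block_diag [DecidableEq ι] (w : ι → κ) {X : Matrix ι ι ℂ} (hX : X.PosSemidef) :
    ∃ (U : Matrix ι ι ℂ) (r : ι → ℝ), Uᴴ * U = 1 ∧ U * Uᴴ = 1 ∧ (∀ x y, w x ≠ w y → U x y = 0) ∧
      (∀ x, 0 ≤ r x) ∧ Pin w X = U * diagonal (fun i => (r i : ℂ)) * Uᴴ := by
  set W : ∀ k : κ, Matrix {x // w x = k} {x // w x = k} ℂ :=
    fun k => X.submatrix Subtype.val Subtype.val with hW
  have hWp : ∀ k, (W k).PosSemidef := fun k => hX.submatrix _
  choose V hV1 hV2 hV3 using fun k => exists_unitary_diag (hWp k).1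
  set e := Equiv.sigmaFiberEquiv w with he
  set r0 : (Σ k : κ, {x // w x = k}) → ℝ := fun z => (hWp z.1).1.eigenvalues z.2 with hr0
  refine ⟨(blockDiagonal' V).submatrix e.symm e.symm, fun x => r0 (e.symm x), ?_, ?_, ?_, ?_, ?_⟩
  · rw [conjTranspose_submatrix, submatrix_mul_equiv, blockDiagonal'_conjTranspose,
      ← blockDiagonal'_mul]
    simp only [hV1]
    have h1 : (fun k => (1 : Matrix {x // w x = k} {x // w x = k} ℂ)) = 1 := rfl
    rw [h1, blockDiagonal'_one, submatrix_one_equiv]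
  · rw [conjTranspose_submatrix, submatrix_mul_equiv, blockDiagonal'_conjTranspose,
      ← blockDiagonal'_mul]
    simp only [hV2]
    have h1 : (fun k => (1 : Matrix {x // w x = k} {x // w x = k} ℂ)) = 1 := rfl
    rw [h1, blockDiagonal'_one, submatrix_one_equiv]
  · intro x y hxy
    rw [submatrix_apply]
    exact blockDiagonal'_apply_ne V _ _ hxy
  · intro x
    exact (hWp _).eigenvalues_nonneg _
  · have h1 : (diagonal fun x => ((r0 (e.symm x) : ℝ) : ℂ)) =
        (blockDiagonal' fun k => diagonal fun i => (((hWp k).1.eigenvalues i : ℝ) : ℂ)).submatrix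
          e.symm e.symm := by
      rw [blockDiagonal'_diagonal, submatrix_diagonal_equiv]
      rfl
    rw [h1, conjTranspose_submatrix, submatrix_mul_equiv, submatrix_mul_equiv,
      blockDiagonal'_conjTranspose, ← blockDiagonal'_mul, ← blockDiagonal'_mul]
    have h2 : (fun k => V k * (diagonal fun i => (((hWp k).1.eigenvalues i : ℝ) : ℂ)) * (V k)ᴴ)
        = W := funext fun k => (hV3 k).symm
    rw [h2]
    ext x y
    rw [submatrix_apply, Pin, of_apply]
    by_cases h : w x = w y
    · rw [if_pos h]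
      have key : ∀ (k : κ) (y : ι) (hy : w y = k) (_ : w x = k),
          blockDiagonal' W ⟨w x, ⟨x, rfl⟩⟩ ⟨k, ⟨y, hy⟩⟩ = X x y := by
        intro k y hy h
        subst h
        rw [blockDiagonal'_apply_eq]
        rfl
      exact (key (w y) y rfl h).symm
    · rw [if_neg h]
      exact (blockDiagonal'_apply_ne W _ _ h).symm

omit [DecidableEq ι] in
theorem tr_mul_conj (G : Matrix ι ι ℂ) : (G * Gᴴ).trace.re = ∑ i, ∑ j, ‖G i j‖ ^ 2 := by
  simp only [trace, diag_apply, Complex.re_sum, Matrix.mul_apply, conjTranspose_apply]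
  refine Finset.sum_congr rfl fun i _ => Finset.sum_congr rfl fun j _ => ?_
  rw [RCLike.star_def, Complex.mul_conj, Complex.normSq_eq_norm_sq, Complex.ofReal_re]

/-- **The pinching inequality** -/
theorem pin_ineq (w : ι → κ) {E X : Matrix ι ι ℂ} (hE : E.PosSemidef) (hX : X.PosSemidef) :
    (E * X).trace.re ≤ Fintype.card κ * (E * Pin w X).trace.re := by
  obtain ⟨B, rfl⟩ := exists_sqrt hE
  obtain ⟨C, rfl⟩ := exists_sqrt hX
  set P : κ → Matrix ι ι ℂ := fun k => diagonal fun x => if w x = k then 1 else 0 with hP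
  have hP1 : ∑ k, P k = 1 := by
    ext x y
    rw [Matrix.sum_apply]
    simp only [hP, diagonal_apply, one_apply]
    by_cases h : x = y
    · subst h
      simp
    · simp [h]
  have hPc : ∀ k, (P k)ᴴ = P k := by
    intro k
    rw [hP]
    simp only
    rw [diagonal_conjTranspose]
    congr 1
    funext x
    by_cases h : w x = k <;> simp [h]
  have hpin : Pin w (Cᴴ * C) = ∑ k, P k * (Cᴴ * C) * P k := by
    ext x y
    rw [Matrix.sum_apply, Pin, of_apply]
    simp only [hP, mul_diagonal, diagonal_mul]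
    rw [Finset.sum_eq_single (w x)]
    · by_cases h : w x = w y
      · simp [h]
      · simp [h, Ne.symm h]
    · intro k _ hk
      simp [Ne.symm hk]
    · simp
  set G : κ → Matrix ι ι ℂ := fun k => B * P k * Cᴴ with hGd
  have hG : B * Cᴴ = ∑ k, G k := by
    rw [hGd, ← Finset.sum_mul, ← Finset.mul_sum, hP1, mul_one]
  have e1 : (Bᴴ * B * (Cᴴ * C)).trace = ((B * Cᴴ) * (B * Cᴴ)ᴴ).trace := by
    rw [conjTranspose_mul, conjTranspose_conjTranspose,
      show Bᴴ * B * (Cᴴ * C) = Bᴴ * (B * Cᴴ * C) by simp only [Matrix.mul_assoc], trace_mul_comm]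
    simp only [Matrix.mul_assoc]
  have e2 : ∀ k, (Bᴴ * B * (P k * (Cᴴ * C) * P k)).trace = (G k * (G k)ᴴ).trace := by
    intro k
    rw [hGd]
    simp only
    rw [conjTranspose_mul, conjTranspose_mul, conjTranspose_conjTranspose, hPc,
      show Bᴴ * B * (P k * (Cᴴ * C) * P k) = Bᴴ * (B * P k * Cᴴ * C * P k) by
        simp only [Matrix.mul_assoc], trace_mul_comm]
    simp only [Matrix.mul_assoc]
  rw [e1, hpin, Matrix.mul_sum, trace_sum, Complex.re_sum]
  simp only [e2, tr_mul_conj]
  rw [hG]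
  calc ∑ i, ∑ j, ‖(∑ k, G k) i j‖ ^ 2
      ≤ ∑ i, ∑ j, ((Fintype.card κ : ℝ) * ∑ k, ‖G k i j‖ ^ 2) := by
        refine Finset.sum_le_sum fun i _ => Finset.sum_le_sum fun j _ => ?_
        rw [Matrix.sum_apply]
        have h1 : ‖∑ k, G k i j‖ ≤ ∑ k, ‖G k i j‖ := norm_sum_le _ _
        have h2 : (∑ k, ‖G k i j‖) ^ 2 ≤ (Finset.univ : Finset κ).card * ∑ k, ‖G k i j‖ ^ 2 :=
          sq_sum_le_card_mul_sum_sq
        rw [Finset.card_univ] at h2
        exact (pow_le_pow_left₀ (norm_nonneg _) h1 2).trans h2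
    _ = (Fintype.card κ : ℝ) * ∑ k, ∑ i, ∑ j, ‖G k i j‖ ^ 2 := by
        simp only [← Finset.mul_sum]
        congr 1
        rw [Finset.sum_congr rfl fun i _ => Finset.sum_comm, Finset.sum_comm]

theorem scalar_bound {s r e μ : ℝ} (hs1 : 1 < s) (hr : 0 ≤ r) (he0 : 0 ≤ e) (he1 : e ≤ 1)
    (hμ : 0 < μ) : r * e ≤ μ * e + μ ^ (1 - s) * r ^ s := by
  have h1 : 0 ≤ μ ^ (1 - s) * r ^ s :=
    mul_nonneg (Real.rpow_nonneg hμ.le _) (Real.rpow_nonneg hr _)
  rcases le_or_gt r μ with h | h
  · have := mul_le_mul_of_nonneg_right h he0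
    linarith
  · have hr' : 0 < r := hμ.trans h
    have h2 : r = r ^ (1 - s) * r ^ s := by
      rw [← Real.rpow_add hr']
      norm_num
    have h3 : r ^ (1 - s) ≤ μ ^ (1 - s) := Real.rpow_le_rpow_of_nonpos hμ h.le (by linarith)
    have h4 : r ^ (1 - s) * r ^ s ≤ μ ^ (1 - s) * r ^ s :=
      mul_le_mul_of_nonneg_right h3 (Real.rpow_nonneg hr _)
    have h5 : r * e ≤ r := mul_le_of_le_one_right hr he1
    have h6 : 0 ≤ μ * e := by positivity
    linarith

/-- **One-shot bound** -/
theorem code_bound {s : ℝ} (hs1 : 1 < s) (w : ι → κ) (σ : ι → ℝ) (hσ : ∀ x, 0 < σ x)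
    (hw : ∀ x y, w x = w y → σ x = σ y) {E X : Matrix ι ι ℂ} (hE : E.PosSemidef)
    (hE1 : (1 - E).PosSemidef) (hX : X.PosSemidef) {lam : ℝ} (hlam : 0 < lam) :
    (E * X).trace.re ≤ Fintype.card κ * (lam * (∑ x, σ x * (E x x).re) + lam ^ (1 - s) *
      tp s (diagonal (fun x => ((σ x ^ (-(s - 1) / (2 * s)) : ℝ) : ℂ)) * X *
        diagonal (fun x => ((σ x ^ (-(s - 1) / (2 * s)) : ℝ) : ℂ)))) := by
  have hs0 : s ≠ 0 := by linarith
  obtain ⟨U, r, hU1, hU2, hU0, hr, hpin⟩ := exists_block_diag w hX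
  refine (pin_ineq w hE hX).trans (mul_le_mul_of_nonneg_left ?_ (Nat.cast_nonneg _))
  set e : ι → ℝ := fun j => ((Uᴴ * E * U) j j).re with he
  have he0 : ∀ j, 0 ≤ e j := fun j =>
    (Complex.le_def.1 ((hE.conjTranspose_mul_mul_same U).diag_nonneg (i := j))).1
  have he1 : ∀ j, e j ≤ 1 := fun j => by
    have h1 := (Complex.le_def.1 ((hE1.conjTranspose_mul_mul_same U).diag_nonneg (i := j))).1
    rw [Matrix.mul_sub, Matrix.mul_one, Matrix.sub_mul, hU1, Matrix.sub_apply, one_apply_eq,
      Complex.sub_re, Complex.one_re, Complex.zero_re] at h1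
    rw [he]
    simp only
    linarith
  -- commutation with diagonal class functions
  have hcomm : ∀ f : ι → ℝ, (∀ x y, w x = w y → f x = f y) →
      U * diagonal (fun x => (f x : ℂ)) = diagonal (fun x => (f x : ℂ)) * U := by
    intro f hf
    ext x y
    rw [mul_diagonal, diagonal_mul]
    by_cases h : w x = w y
    · rw [hf x y h, mul_comm]
    · rw [hU0 x y h, zero_mul, mul_zero]
  have hcomm' : ∀ f : ι → ℝ, (∀ x y, w x = w y → f x = f y) →
      Uᴴ * diagonal (fun x => (f x : ℂ)) = diagonal (fun x => (f x : ℂ)) * Uᴴ := by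
    intro f hf
    have h1 : (diagonal (fun x => (f x : ℂ)))ᴴ = diagonal (fun x => (f x : ℂ)) := by
      rw [diagonal_conjTranspose]
      congr 1
      funext x
      simp
    have h2 := congrArg conjTranspose (hcomm f hf)
    rw [conjTranspose_mul, conjTranspose_mul, h1] at h2
    exact h2.symm
  have step1 : (E * Pin w X).trace.re = ∑ j, r j * e j := by
    rw [hpin, show E * (U * diagonal (fun i => (r i : ℂ)) * Uᴴ) =
      (E * U * diagonal (fun i => (r i : ℂ))) * Uᴴ by simp only [Matrix.mul_assoc], trace_mul_comm,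
      show Uᴴ * (E * U * diagonal (fun i => (r i : ℂ))) =
      (Uᴴ * E * U) * diagonal (fun i => (r i : ℂ)) by simp only [Matrix.mul_assoc], trace,
      Complex.re_sum]
    refine Finset.sum_congr rfl fun j _ => ?_
    rw [diag_apply, mul_diagonal, mul_comm, Complex.re_ofReal_mul]
  have step2 : ∑ j, σ j * e j = ∑ x, σ x * (E x x).re := by
    have h1 : ∀ M : Matrix ι ι ℂ, ∑ j, σ j * (M j j).re =
        (M * diagonal (fun x => (σ x : ℂ))).trace.re := by
      intro M
      rw [trace, Complex.re_sum]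
      refine Finset.sum_congr rfl fun j _ => ?_
      rw [diag_apply, mul_diagonal, mul_comm (M j j), Complex.re_ofReal_mul]
    rw [h1 E, he]
    simp only
    rw [h1 (Uᴴ * E * U), Matrix.mul_assoc, hcomm σ hw, Matrix.mul_assoc, trace_mul_comm,
      Matrix.mul_assoc, Matrix.mul_assoc, hU2, Matrix.mul_one]
  have step3 : ∀ j, (Uᴴ * X * U) j j = (r j : ℂ) := by
    intro j
    have h1 : (Uᴴ * X * U) j j = (Uᴴ * Pin w X * U) j j := by
      simp only [Matrix.mul_apply]
      refine Finset.sum_congr rfl fun y _ => ?_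
      rw [Finset.sum_mul, Finset.sum_mul]
      refine Finset.sum_congr rfl fun x _ => ?_
      rw [conjTranspose_apply, Pin, of_apply]
      by_cases hy : w y = w j
      · by_cases hx : w x = w j
        · rw [if_pos (hx.trans hy.symm)]
        · rw [hU0 x j hx]
          simp
      · rw [hU0 y j hy, mul_zero, mul_zero]
    rw [h1, hpin, show Uᴴ * (U * diagonal (fun i => (r i : ℂ)) * Uᴴ) * U =
      (Uᴴ * U) * diagonal (fun i => (r i : ℂ)) * (Uᴴ * U) by simp only [Matrix.mul_assoc], hU1,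
      Matrix.one_mul, Matrix.mul_one, diagonal_apply_eq]
  set dd : ι → ℝ := fun x => σ x ^ (-(s - 1) / (2 * s)) with hdd
  have hddw : ∀ x y, w x = w y → dd x = dd y := fun x y h => by
    rw [hdd]
    simp only
    rw [hw x y h]
  have step4 : ∀ j, ((Uᴴ * (diagonal (fun x => (dd x : ℂ)) * X * diagonal (fun x => (dd x : ℂ)))
      * U) j j).re = dd j ^ 2 * r j := by
    intro j
    rw [show Uᴴ * (diagonal (fun x => (dd x : ℂ)) * X * diagonal (fun x => (dd x : ℂ))) * U =
      (Uᴴ * diagonal (fun x => (dd x : ℂ))) * X * (diagonal (fun x => (dd x : ℂ)) * U) by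
        simp only [Matrix.mul_assoc], hcomm' dd hddw, ← hcomm dd hddw,
      show diagonal (fun x => (dd x : ℂ)) * Uᴴ * X * (U * diagonal (fun x => (dd x : ℂ))) =
      diagonal (fun x => (dd x : ℂ)) * (Uᴴ * X * U) * diagonal (fun x => (dd x : ℂ)) by
        simp only [Matrix.mul_assoc], mul_diagonal, diagonal_mul, step3]
    rw [← Complex.ofReal_mul, ← Complex.ofReal_mul, Complex.ofReal_re]
    ring
  have step5 : ∑ j, σ j ^ (1 - s) * r j ^ s ≤ tp s (diagonal (fun x => (dd x : ℂ)) * X *
      diagonal (fun x => (dd x : ℂ))) := by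
    have hD : (diagonal (fun x => (dd x : ℂ)) * X * diagonal (fun x => (dd x : ℂ))).PosSemidef := by
      have h1 : (diagonal (fun x => (dd x : ℂ)))ᴴ = diagonal (fun x => (dd x : ℂ)) := by
        rw [diagonal_conjTranspose]
        congr 1
        funext x
        simp
      have h2 := hX.mul_mul_conjTranspose_same (diagonal (fun x => (dd x : ℂ)))
      rwa [h1] at h2
    have h1 := peierls hs1.le hD hU2 hU1
    refine le_trans (le_of_eq ?_) h1
    refine Finset.sum_congr rfl fun j _ => ?_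
    rw [step4, Real.mul_rpow (by positivity) (hr j)]
    congr 1
    rw [hdd]
    simp only
    rw [← Real.rpow_natCast (σ j ^ (-(s - 1) / (2 * s))) 2, ← Real.rpow_mul (hσ j).le,
      ← Real.rpow_mul (hσ j).le]
    congr 1
    field_simp
    ring
  rw [step1]
  calc ∑ j, r j * e j ≤ ∑ j, (lam * σ j * e j + (lam * σ j) ^ (1 - s) * r j ^ s) :=
        Finset.sum_le_sum fun j _ => scalar_bound hs1 (hr j) (he0 j) (he1 j)
          (mul_pos hlam (hσ j))
    _ = lam * ∑ j, σ j * e j + lam ^ (1 - s) * ∑ j, σ j ^ (1 - s) * r j ^ s := by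
        rw [Finset.sum_add_distrib, Finset.mul_sum, Finset.mul_sum]
        congr 1
        · exact Finset.sum_congr rfl fun j _ => by ring
        · refine Finset.sum_congr rfl fun j _ => ?_
          rw [Real.mul_rpow hlam.le (hσ j).le]
          ring
    _ ≤ _ := by
        rw [step2]
        gcongr

end Vale.Agent.P358.SC
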