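import Vale.Agent.P358.MathlibUsed

set_option autoImplicit false

namespace Vale.Agent.P358

/-- `Tr X ^ s` for a Hermitian matrix `X`, from the eigenvalues. -/
noncomputable def traceRpow {ι : Type} [Fintype ι] [DecidableEq ι] (s : ℝ) (X : Matrix ι ι ℂ) :
    ℝ :=
  if h : X.IsHermitian then ∑ i, h.eigenvalues i ^ s else 0

end Vale.Agent.P358
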