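import Vale.Agent.P358.H697.Kap

set_option autoImplicit false

/-!
# P358 / H697 / Sca: the scalar analysis
-/

namespace Vale.Agent.P358.SC

open Real Set Filter Topology

/-- cross entropy -/
noncomputable def cr (x t : ℝ) : ℝ := -(x * Real.log t) - (1 - x) * Real.log (1 - t)

theorem cr_self (t : ℝ) : cr t t = negMulLog t + negMulLog (1 - t) := by
  unfold cr negMulLog
  ring

theorem gibbs_one {x t : ℝ} (hx : 0 ≤ x) (ht : 0 < t) :
    negMulLog x ≤ -(x * Real.log t) + (t - x) := by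
  rcases hx.eq_or_lt with h | h
  · rw [← h]
    simp [ht.le]
  · have h1 := Real.log_le_sub_one_of_pos (div_pos ht h)
    rw [Real.log_div ht.ne' h.ne'] at h1
    have h2 := mul_le_mul_of_nonneg_left h1 h.le
    have h3 : x * (t / x - 1) = t - x := by field_simp
    rw [h3] at h2
    unfold negMulLog
    linarith

theorem gibbs_bin {x t : ℝ} (hx0 : 0 ≤ x) (hx1 : x ≤ 1) (ht0 : 0 < t) (ht1 : t < 1) :
    negMulLog x + negMulLog (1 - x) ≤ cr x t := by
  have h1 := gibbs_one hx0 ht0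
  have h2 := gibbs_one (x := 1 - x) (t := 1 - t) (by linarith) (by linarith)
  unfold cr
  linarith

theorem cr_add (ε x y t : ℝ) : cr ((1 - ε) * x + ε * y) t = (1 - ε) * cr x t + ε * cr y t := by
  unfold cr
  ring

theorem blow {x B : ℝ} (hx : 0 < x) (hx1 : x ≤ 1) :
    ∃ ε : ℝ, 0 < ε ∧ ε < 1 ∧ B < -(x * Real.log (ε * x)) := by
  refine ⟨Real.exp (-(|B| / x + 1)), Real.exp_pos _, ?_, ?_⟩
  · rw [Real.exp_lt_one_iff]
    have : 0 ≤ |B| / x := by positivity
    linarith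
  · rw [Real.log_mul (Real.exp_pos _).ne' hx.ne', Real.log_exp]
    have h1 : Real.log x ≤ 0 := Real.log_nonpos hx.le hx1
    have h2 : x * (|B| / x) = |B| := by field_simp
    have h3 : -(x * (-(|B| / x + 1) + Real.log x)) = x * (|B| / x) + x - x * Real.log x := by ring
    rw [h3, h2]
    have h4 : x * Real.log x ≤ 0 := mul_nonpos_of_nonneg_of_nonpos hx.le h1
    have h5 := le_abs_self B
    linarith

theorem cr_ge_left {x t : ℝ} (hx1 : x ≤ 1) (ht0 : 0 < t) (ht1 : t < 1) :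
    -(x * Real.log t) ≤ cr x t := by
  have h : Real.log (1 - t) ≤ 0 := Real.log_nonpos (by linarith) (by linarith)
  have h2 : (1 - x) * Real.log (1 - t) ≤ 0 := mul_nonpos_of_nonneg_of_nonpos (by linarith) h
  unfold cr
  linarith

theorem cr_ge_right {x t : ℝ} (hx0 : 0 ≤ x) (ht0 : 0 < t) (ht1 : t < 1) :
    -((1 - x) * Real.log (1 - t)) ≤ cr x t := by
  have h : Real.log t ≤ 0 := Real.log_nonpos ht0.le ht1.le
  have h2 : x * Real.log t ≤ 0 := mul_nonpos_of_nonneg_of_nonpos hx0 h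
  unfold cr
  linarith

/-- **The minimax point.** -/
theorem exists_t (H : ℝ → ℝ) (α β : ℝ) (hτ : ∀ q ∈ Icc (0 : ℝ) 1, α + β * q ∈ Icc (0 : ℝ) 1)
    (hH : ∀ q₀ ∈ Icc (0 : ℝ) 1, ∀ q ∈ Icc (0 : ℝ) 1, ∀ ε ∈ Icc (0 : ℝ) 1,
      H ((1 - ε) * q₀ + ε * q) ≤ (1 - ε) * H q₀ + ε * H q)
    {C : ℝ} {q₀ : ℝ} (hq₀ : q₀ ∈ Icc (0 : ℝ) 1)
    (hC : negMulLog (α + β * q₀) + negMulLog (1 - (α + β * q₀)) - H q₀ = C)
    (hmax : ∀ q ∈ Icc (0 : ℝ) 1,
      negMulLog (α + β * q) + negMulLog (1 - (α + β * q)) - H q ≤ C)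
    {R : ℝ} (hR : C < R) :
    ∃ t : ℝ, 0 < t ∧ t < 1 ∧ ∀ q ∈ Icc (0 : ℝ) 1, cr (α + β * q) t - H q ≤ R := by
  have hexp1 : Real.exp (-(R - C)) < 1 := by
    rw [Real.exp_lt_one_iff]
    linarith
  by_cases hβ : β = 0
  · subst hβ
    simp only [zero_mul, add_zero] at *
    obtain ⟨h0, h1⟩ := hτ 0 (left_mem_Icc.2 zero_le_one)
    rcases h0.eq_or_lt with h | h
    · refine ⟨1 - Real.exp (-(R - C)), by linarith, by linarith [Real.exp_pos (-(R - C))],
        fun q hq => ?_⟩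
      have h2 := hmax q hq
      rw [← h] at h2 ⊢
      unfold cr
      rw [show (1 : ℝ) - (1 - Real.exp (-(R - C))) = Real.exp (-(R - C)) by ring, Real.log_exp]
      simp only [negMulLog_zero, sub_zero, negMulLog_one, zero_add, zero_sub] at h2
      linarith
    rcases h1.eq_or_lt with h' | h'
    · refine ⟨Real.exp (-(R - C)), Real.exp_pos _, hexp1, fun q hq => ?_⟩
      have h2 := hmax q hq
      rw [h'] at h2 ⊢
      unfold cr
      rw [Real.log_exp]
      simp only [negMulLog_zero, sub_self, negMulLog_one, zero_add, zero_sub] at h2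
      linarith
    · refine ⟨α, h, h', fun q hq => ?_⟩
      have h2 := hmax q hq
      rw [cr_self]
      linarith
  · set t₀ := α + β * q₀ with ht₀
    have key : ∀ q ∈ Icc (0 : ℝ) 1, ∀ ε : ℝ, 0 < ε → ε < 1 →
        0 < (1 - ε) * t₀ + ε * (α + β * q) → (1 - ε) * t₀ + ε * (α + β * q) < 1 →
        cr (α + β * q) ((1 - ε) * t₀ + ε * (α + β * q)) - H q ≤ C := by
      intro q hq ε hε hε1 hpos hlt
      have hqε : (1 - ε) * q₀ + ε * q ∈ Icc (0 : ℝ) 1 := by
        have h1 := hq₀.1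
        have h2 := hq₀.2
        have h3 := hq.1
        have h4 := hq.2
        constructor
        · nlinarith
        · nlinarith
      have e : α + β * ((1 - ε) * q₀ + ε * q) = (1 - ε) * t₀ + ε * (α + β * q) := by
        rw [ht₀]
        ring
      have h1 := hmax _ hqε
      rw [e, ← cr_self, cr_add] at h1
      have h2 := gibbs_bin (hτ q₀ hq₀).1 (hτ q₀ hq₀).2 hpos hlt
      rw [← ht₀] at h2
      have h3 := hH q₀ hq₀ q hq ε ⟨hε.le, hε1.le⟩
      have h4 : (1 - ε) * (negMulLog t₀ + negMulLog (1 - t₀)) ≤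
          (1 - ε) * cr t₀ ((1 - ε) * t₀ + ε * (α + β * q)) :=
        mul_le_mul_of_nonneg_left h2 (by linarith)
      have h5 : ε * (cr (α + β * q) ((1 - ε) * t₀ + ε * (α + β * q)) - H q) ≤ ε * C := by
        rw [← hC] at h1 ⊢
        nlinarith
      exact le_of_mul_le_mul_left h5 hε
    obtain ⟨a0, a1⟩ := hτ 0 (left_mem_Icc.2 zero_le_one)
    obtain ⟨b0, b1⟩ := hτ 1 (right_mem_Icc.2 zero_le_one)
    have c01 := hτ q₀ hq₀
    rw [← ht₀] at c01
    have hex : ∀ c : ℝ, ∃ q ∈ Icc (0 : ℝ) 1, α + β * q ≠ c := by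
      intro c
      by_cases hc : α + β * 0 = c
      · refine ⟨1, right_mem_Icc.2 zero_le_one, fun h => hβ ?_⟩
        linarith
      · exact ⟨0, left_mem_Icc.2 zero_le_one, hc⟩
    have hne0 : t₀ ≠ 0 := by
      intro h0
      obtain ⟨q, hq, hne⟩ := hex 0
      have hx := hτ q hq
      have hx0 : 0 < α + β * q := lt_of_le_of_ne hx.1 (Ne.symm hne)
      obtain ⟨ε, hε, hε1, hB⟩ := blow (B := C + H q) hx0 hx.2
      have e : (1 - ε) * t₀ + ε * (α + β * q) = ε * (α + β * q) := by rw [h0]; ring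
      have hlt : ε * (α + β * q) < 1 := by nlinarith [hx.2]
      have h1 := key q hq ε hε hε1 (by rw [e]; positivity) (by rw [e]; exact hlt)
      rw [e] at h1
      have h2 := cr_ge_left hx.2 (mul_pos hε hx0) hlt
      linarith
    have hne1 : t₀ ≠ 1 := by
      intro h0
      obtain ⟨q, hq, hne⟩ := hex 1
      have hx := hτ q hq
      have hx0 : 0 < 1 - (α + β * q) := by
        have := lt_of_le_of_ne hx.2 hne
        linarith
      obtain ⟨ε, hε, hε1, hB⟩ := blow (B := C + H q) hx0 (by linarith [hx.1])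
      have e : (1 - ε) * t₀ + ε * (α + β * q) = 1 - ε * (1 - (α + β * q)) := by rw [h0]; ring
      have hlt : ε * (1 - (α + β * q)) < 1 := by nlinarith [hx.1]
      have h1 := key q hq ε hε hε1 (by rw [e]; linarith) (by rw [e]; linarith [mul_pos hε hx0])
      rw [e] at h1
      have h2 := cr_ge_right (t := 1 - ε * (1 - (α + β * q))) hx.1 (by linarith)
        (by linarith [mul_pos hε hx0])
      rw [show 1 - (1 - ε * (1 - (α + β * q))) = ε * (1 - (α + β * q)) by ring] at h2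
      linarith
    have ht0 : 0 < t₀ := lt_of_le_of_ne c01.1 (Ne.symm hne0)
    have ht1 : t₀ < 1 := lt_of_le_of_ne c01.2 hne1
    refine ⟨t₀, ht0, ht1, fun q hq => ?_⟩
    have hx := hτ q hq
    have hcont : ContinuousAt (fun ε : ℝ => cr (α + β * q) ((1 - ε) * t₀ + ε * (α + β * q)) - H q)
        0 := by
      unfold cr
      have h1 : ContinuousAt (fun ε : ℝ => (1 - ε) * t₀ + ε * (α + β * q)) 0 := by fun_prop
      have h2 : ContinuousAt (fun ε : ℝ => 1 - ((1 - ε) * t₀ + ε * (α + β * q))) 0 := by fun_prop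
      have h3 := h1.log (by simpa using ht0.ne')
      have h4 := h2.log (by
        simp only [sub_zero, one_mul, zero_mul, add_zero]
        linarith)
      exact (((h3.const_mul (α + β * q)).neg).sub (h4.const_mul _)).sub continuousAt_const
    have hlim : Tendsto (fun ε : ℝ => cr (α + β * q) ((1 - ε) * t₀ + ε * (α + β * q)) - H q)
        (𝓝[>] 0) (𝓝 (cr (α + β * q) t₀ - H q)) := by
      have h1 := hcont.tendsto.mono_left (nhdsWithin_le_nhds (s := Ioi 0))
      simpa using h1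
    have hle : ∀ᶠ ε : ℝ in 𝓝[>] 0,
        cr (α + β * q) ((1 - ε) * t₀ + ε * (α + β * q)) - H q ≤ C := by
      have h1 : Ioo (0 : ℝ) 1 ∈ 𝓝[>] (0 : ℝ) := Ioo_mem_nhdsGT one_pos
      filter_upwards [h1] with ε hε
      refine key q hq ε hε.1 hε.2 ?_ ?_
      · have h2 := mul_pos (sub_pos.2 hε.2) ht0
        have h3 := mul_nonneg hε.1.le hx.1
        linarith
      · have h2 := mul_pos (sub_pos.2 hε.2) (sub_pos.2 ht1)
        have h3 := mul_nonneg hε.1.le (sub_nonneg.2 hx.2)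
        nlinarith
    exact (le_of_tendsto hlim hle).trans hR.le

theorem exp_le_quad {x : ℝ} (hx : x ≤ 1) : Real.exp x ≤ 1 + x + x ^ 2 := by
  rcases le_or_gt (-1) x with h | h
  · have := Real.abs_exp_sub_one_sub_id_le (abs_le.2 ⟨h, hx⟩)
    have := le_abs_self (Real.exp x - 1 - x)
    linarith
  · have h1 : Real.exp x ≤ 1 := Real.exp_le_one_iff.2 (by linarith)
    nlinarith

theorem mul_log_sq_le {x : ℝ} (hx : 0 < x) (hx2 : x ≤ 2) : x * (Real.log x) ^ 2 ≤ 4 := by
  rcases le_or_gt x 1 with h | h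
  · set y := √x with hy
    have hy0 : 0 < y := Real.sqrt_pos.2 hx
    have hyy : y ^ 2 = x := Real.sq_sqrt hx.le
    have hy1 : y ≤ 1 := Real.sqrt_le_one.2 h
    have h1 := Real.one_sub_inv_le_log_of_pos hy0
    have h2 : Real.log y ≤ 0 := Real.log_nonpos hy0.le hy1
    have h3 : -(y * Real.log y) ≤ 1 := by
      have h4 := mul_le_mul_of_nonneg_left h1 hy0.le
      have h5 : y * (1 - y⁻¹) = y - 1 := by field_simp
      rw [h5] at h4
      linarith
    have h4 : 0 ≤ -(y * Real.log y) := by nlinarith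
    have h5 : Real.log x = 2 * Real.log y := by
      rw [← hyy, Real.log_pow]
      norm_num
    rw [h5, ← hyy]
    have h6 : y ^ 2 * (2 * Real.log y) ^ 2 = 4 * (-(y * Real.log y)) ^ 2 := by ring
    rw [h6]
    nlinarith
  · have h1 := Real.log_nonneg h.le
    have h2 := Real.log_le_sub_one_of_pos hx
    have h3 : Real.log x ≤ 1 := by linarith
    have h4 : (Real.log x) ^ 2 ≤ 1 := by nlinarith
    nlinarith

theorem pow_le_quad {x δ : ℝ} (hx : 0 ≤ x) (hx2 : x ≤ 2) (hδ : 0 < δ) (hδ1 : δ ≤ 1) :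
    x ^ (1 + δ) ≤ x - δ * negMulLog x + 4 * δ ^ 2 := by
  rcases hx.eq_or_lt with h | h
  · rw [← h, Real.zero_rpow (by linarith)]
    simp
    positivity
  · have h1 : δ * Real.log x ≤ 1 := by
      have h2 := Real.log_le_sub_one_of_pos h
      have h3 : Real.log x ≤ 1 := by linarith
      nlinarith
    have h2 := exp_le_quad h1
    have h3 : x ^ (1 + δ) = x * Real.exp (δ * Real.log x) := by
      rw [Real.rpow_add h, Real.rpow_one, Real.rpow_def_of_pos h, mul_comm (Real.log x)]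
    rw [h3]
    have h4 := mul_le_mul_of_nonneg_left h2 h.le
    refine h4.trans ?_
    have h5 := mul_log_sq_le h hx2
    have h6 : x * (1 + δ * Real.log x + (δ * Real.log x) ^ 2) =
        x + δ * (x * Real.log x) + δ ^ 2 * (x * (Real.log x) ^ 2) := by ring
    rw [h6]
    have h7 := mul_le_mul_of_nonneg_left h5 (sq_nonneg δ)
    unfold negMulLog
    linarith

theorem e2_le_quad {T D δ : ℝ} (hT : 0 ≤ T) (hT2 : T ≤ 2) (hD : 0 ≤ D) (hδ : 0 < δ)
    (hδ1 : δ ≤ 1) : e2 (1 + δ) T D ≤ T - δ * eta2 T D + 8 * δ ^ 2 := by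
  have h0 := sqrt_le_T hT hD
  have h1 : 0 ≤ √(T ^ 2 - 4 * D) := Real.sqrt_nonneg _
  have e1 := pow_le_quad (x := (T + √(T ^ 2 - 4 * D)) / 2) (by positivity) (by linarith) hδ hδ1
  have e3 := pow_le_quad (x := (T - √(T ^ 2 - 4 * D)) / 2) (by linarith) (by linarith) hδ hδ1
  unfold e2 eta2
  linarith

/-- **The uniform first-order expansion.** -/
theorem exists_delta (Det : ℝ → ℝ) (hDet : Continuous Det)
    (hDet0 : ∀ q ∈ Icc (0 : ℝ) 1, 0 ≤ Det q) (α β : ℝ)
    (hτ : ∀ q ∈ Icc (0 : ℝ) 1, α + β * q ∈ Icc (0 : ℝ) 1) {t : ℝ} (ht0 : 0 < t) (ht1 : t < 1)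
    {R₁ R : ℝ} (hR : R₁ < R)
    (h : ∀ q ∈ Icc (0 : ℝ) 1, cr (α + β * q) t - eta2 1 (Det q) ≤ R₁) :
    ∃ δ : ℝ, 0 < δ ∧ δ < 1 ∧ ∀ q ∈ Icc (0 : ℝ) 1,
      e2 (1 + δ) ((1 - t) ^ (-(δ / (1 + δ))) * (1 - (α + β * q)) +
        t ^ (-(δ / (1 + δ))) * (α + β * q))
        ((1 - t) ^ (-(δ / (1 + δ))) * t ^ (-(δ / (1 + δ))) * Det q) ≤ Real.exp (δ * R) := by
  set u := -Real.log t with hu
  set v := -Real.log (1 - t) with hv
  have hu0 : 0 < u := by
    have := Real.log_neg ht0 ht1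
    linarith
  have hv0 : 0 < v := by
    have := Real.log_neg (x := 1 - t) (by linarith) (by linarith)
    linarith
  have eb : ∀ η : ℝ, t ^ (-η) = Real.exp (u * η) := by
    intro η
    rw [Real.rpow_def_of_pos ht0, hu]
    congr 1
    ring
  have ea : ∀ η : ℝ, (1 - t) ^ (-η) = Real.exp (v * η) := by
    intro η
    rw [Real.rpow_def_of_pos (by linarith), hv]
    congr 1
    ring
  set ε := (R - R₁) / 2 with hε
  have hε0 : 0 < ε := by rw [hε]; linarith
  have hev : ∀ᶠ η : ℝ in 𝓝 0, ∀ q ∈ Icc (0 : ℝ) 1,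
      eta2 1 (Det q) - ε < eta2 (Real.exp (v * η) * (1 - (α + β * q)) +
        Real.exp (u * η) * (α + β * q)) (Real.exp (v * η) * Real.exp (u * η) * Det q) := by
    refine isCompact_Icc.eventually_forall_of_forall_eventually
      (P := fun η q => eta2 1 (Det q) - ε < eta2 (Real.exp (v * η) * (1 - (α + β * q)) +
        Real.exp (u * η) * (α + β * q)) (Real.exp (v * η) * Real.exp (u * η) * Det q))
      fun q _ => ?_
    have hc : Continuous fun z : ℝ × ℝ =>
        eta2 (Real.exp (v * z.1) * (1 - (α + β * z.2)) +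
        Real.exp (u * z.1) * (α + β * z.2)) (Real.exp (v * z.1) * Real.exp (u * z.1) * Det z.2) -
        eta2 1 (Det z.2) := by
      unfold eta2
      fun_prop
    have h1 := hc.tendsto (0, q)
    have h2 : eta2 (Real.exp (v * 0) * (1 - (α + β * q)) +
        Real.exp (u * 0) * (α + β * q)) (Real.exp (v * 0) * Real.exp (u * 0) * Det q) -
        eta2 1 (Det q) = 0 := by
      simp
    simp only at h1
    rw [h2] at h1
    have h3 := h1.eventually (lt_mem_nhds (neg_lt_zero.2 hε0))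
    filter_upwards [h3] with z hz
    linarith
  obtain ⟨r, hr, hball⟩ := Metric.eventually_nhds_iff.1 hev
  obtain ⟨δ, hδ0, hδr, hδ1, hδuv, hδε⟩ : ∃ δ : ℝ, 0 < δ ∧ δ < r ∧ δ < 1 ∧
      δ * (u + v) ≤ 1 / 2 ∧ δ * (u ^ 2 + v ^ 2 + 8) ≤ ε := by
    have p1 : 0 < u + v := by positivity
    have p2 : 0 < u ^ 2 + v ^ 2 + 8 := by positivity
    refine ⟨min (min (r / 2) (1 / 2)) (min (1 / 2 / (u + v)) (ε / (u ^ 2 + v ^ 2 + 8))),
      by positivity, ?_, ?_, ?_, ?_⟩
    · have := (min_le_left (min (r / 2) (1 / 2)) (min (1 / 2 / (u + v))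
        (ε / (u ^ 2 + v ^ 2 + 8)))).trans (min_le_left _ _)
      linarith
    · have := (min_le_left (min (r / 2) (1 / 2)) (min (1 / 2 / (u + v))
        (ε / (u ^ 2 + v ^ 2 + 8)))).trans (min_le_right _ _)
      linarith
    · rw [← le_div_iff₀ p1]
      exact (min_le_right _ _).trans (min_le_left _ _)
    · rw [← le_div_iff₀ p2]
      exact (min_le_right _ _).trans (min_le_right _ _)
  refine ⟨δ, hδ0, hδ1, fun q hq => ?_⟩
  set η := δ / (1 + δ) with hη
  have hη0 : 0 < η := by positivity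
  have hηδ : η ≤ δ := by
    rw [hη, div_le_iff₀ (by linarith)]
    nlinarith
  rw [ea, eb]
  have hx := hτ q hq
  set x := α + β * q with hxd
  have hG := hball (y := η) (by
    rw [Real.dist_eq, sub_zero, abs_of_pos hη0]
    exact hηδ.trans_lt hδr) q hq
  rw [← hxd] at hG
  have b1 : Real.exp (u * η) ≤ 1 + δ * u + δ ^ 2 * u ^ 2 := by
    have h1 : Real.exp (u * η) ≤ Real.exp (δ * u) := Real.exp_le_exp.2 (by nlinarith)
    have h2 := exp_le_quad (x := δ * u) (by nlinarith)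
    linarith [mul_pow δ u 2]
  have b3 : Real.exp (v * η) ≤ 1 + δ * v + δ ^ 2 * v ^ 2 := by
    have h1 : Real.exp (v * η) ≤ Real.exp (δ * v) := Real.exp_le_exp.2 (by nlinarith)
    have h2 := exp_le_quad (x := δ * v) (by nlinarith)
    linarith [mul_pow δ v 2]
  have hcr : cr x t = u * x + v * (1 - x) := by
    unfold cr
    rw [hu, hv]
    ring
  set T := Real.exp (v * η) * (1 - x) + Real.exp (u * η) * x with hT
  have hT0 : 0 ≤ T := by
    have h1 := Real.exp_pos (v * η)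
    have h2 := Real.exp_pos (u * η)
    have h3 := mul_nonneg h1.le (sub_nonneg.2 hx.2)
    have h4 := mul_nonneg h2.le hx.1
    linarith
  have hT1 : T ≤ 1 + δ * cr x t + δ ^ 2 * (u ^ 2 + v ^ 2) := by
    have h3 := mul_le_mul_of_nonneg_right b3 (sub_nonneg.2 hx.2)
    have h4 := mul_le_mul_of_nonneg_right b1 hx.1
    have h5 : 0 ≤ δ ^ 2 * u ^ 2 * (1 - x) := mul_nonneg (by positivity) (sub_nonneg.2 hx.2)
    have h6 : 0 ≤ δ ^ 2 * v ^ 2 * x := mul_nonneg (by positivity) hx.1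
    rw [hT, hcr]
    linarith
  have hT2 : T ≤ 2 := by
    have h1 : cr x t ≤ u + v := by
      rw [hcr]
      nlinarith [mul_nonneg hu0.le (sub_nonneg.2 hx.2), mul_nonneg hv0.le hx.1]
    have h2 : δ * cr x t ≤ 1 / 2 := (mul_le_mul_of_nonneg_left h1 hδ0.le).trans hδuv
    have h3 : δ ^ 2 * (u ^ 2 + v ^ 2) ≤ (δ * (u + v)) ^ 2 := by
      nlinarith [mul_nonneg (sq_nonneg δ) (mul_nonneg hu0.le hv0.le)]
    have h4 : (δ * (u + v)) ^ 2 ≤ (1 / 2) ^ 2 := pow_le_pow_left₀ (by positivity) hδuv 2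
    linarith
  have hq' := e2_le_quad (T := T) (D := Real.exp (v * η) * Real.exp (u * η) * Det q) hT0 hT2
    (mul_nonneg (by positivity) (hDet0 q hq)) hδ0 hδ1.le
  refine hq'.trans ?_
  have h1 := h q hq
  rw [← hxd] at h1
  have h2 : δ * (eta2 1 (Det q) - ε) ≤
      δ * eta2 T (Real.exp (v * η) * Real.exp (u * η) * Det q) :=
    mul_le_mul_of_nonneg_left hG.le hδ0.le
  have h3 : δ * (cr x t - eta2 1 (Det q)) ≤ δ * R₁ := mul_le_mul_of_nonneg_left h1 hδ0.le
  have h4 : δ * (δ * (u ^ 2 + v ^ 2 + 8)) ≤ δ * ε := mul_le_mul_of_nonneg_left hδε hδ0.le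
  have h5 := Real.add_one_le_exp (δ * R)
  have h6 : δ * R = δ * R₁ + 2 * (δ * ε) := by
    rw [hε]
    ring
  have h7 : δ * (δ * (u ^ 2 + v ^ 2 + 8)) = δ ^ 2 * (u ^ 2 + v ^ 2) + 8 * δ ^ 2 := by ring
  rw [h7] at h4
  linarith

end Vale.Agent.P358.SC
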