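import Vale.Agent.P358.H697.Code
import Vale.Agent.P358.H697.Sca

set_option autoImplicit false

/-!
# P358 / H697 / Main: the strong converse with exponential decay
-/

namespace Vale.Agent.P358.SC

open Matrix Real Set
open scoped ComplexOrder

/-- the number of excited sites -/
def ones {n : ℕ} (x : Fin n → Fin 2) : Fin (n + 1) :=
  ⟨(Finset.univ.filter fun i => x i = 1).card, by
    have h := Finset.card_filter_le (Finset.univ : Finset (Fin n)) (fun i => x i = 1)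
    rw [Finset.card_univ, Fintype.card_fin] at h
    omega⟩

theorem wv_ones {n : ℕ} (d : Fin 2 → ℝ) (x : Fin n → Fin 2) :
    wv d x = d 1 ^ (ones x : ℕ) * d 0 ^ (n - (ones x : ℕ)) := by
  have h1 : ∀ i, d (x i) = if x i = 1 then d 1 else d 0 := by
    intro i
    rcases (by omega : x i = 0 ∨ x i = 1) with h | h <;> simp [h]
  unfold wv
  rw [Finset.prod_congr rfl fun i _ => h1 i, Finset.prod_ite, Finset.prod_const,
    Finset.prod_const]
  congr 2
  have h2 := Finset.card_filter_add_card_filter_not (s := (Finset.univ : Finset (Fin n)))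
    (fun i => x i = 1)
  rw [Finset.card_univ, Fintype.card_fin] at h2
  simp only [ones]
  omega

theorem sum_wv (d : Fin 2 → ℝ) (n : ℕ) : ∑ x : Fin n → Fin 2, wv d x = (d 0 + d 1) ^ n := by
  induction n with
  | zero => simp [wv]
  | succ n ih =>
    rw [sum_splitE]
    simp only [wv_cons, ← Finset.mul_sum, ih]
    ring

theorem success_le {s : ℝ} (hs1 : 1 < s) (hs2 : s < 2) {γ ν : ℝ} (hγ : γ ∈ Set.Icc (0:ℝ) 1)
    (hν : ν ∈ Set.Icc (0:ℝ) 1) {t : ℝ} (ht0 : 0 < t) (ht1 : t < 1) {L : ℝ} (hL : 0 ≤ L)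
    (hΛ : ∀ p q : ℝ, 0 ≤ p → 0 ≤ q →
      e2 s ((1 - t) ^ (-((s - 1) / s)) * ((1 - γ * ν) * p + γ * (1 - ν) * q) +
          t ^ (-((s - 1) / s)) * (γ * ν * p + (1 - γ * (1 - ν)) * q))
        ((1 - t) ^ (-((s - 1) / s)) * t ^ (-((s - 1) / s)) * outDet γ ν p q) ≤
        (L * (p + q)) ^ s)
    (n M : ℕ) (ρ : Fin M → Matrix (Fin n → Fin 2) (Fin n → Fin 2) ℂ)
    (E : Fin M → Matrix (Fin n → Fin 2) (Fin n → Fin 2) ℂ) (hρ : ∀ m, IsState (ρ m))
    (hE : ∀ m, (E m).PosSemidef) (hE1 : (1 - ∑ m, E m).PosSemidef) {lam : ℝ} (hlam : 0 < lam) :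
    ∑ m, (E m * tensorPower (gadc γ ν) n (ρ m)).trace.re ≤
      ((n : ℝ) + 1) * (lam + lam ^ (1 - s) * (M * (L ^ n) ^ s)) := by
  have hs0 : 0 < s := by linarith
  set σ₀ : Fin 2 → ℝ := ![1 - t, t] with hσ₀
  have hσp : ∀ b, 0 < σ₀ b := by
    intro b
    fin_cases b
    · simpa [hσ₀] using ht1
    · simpa [hσ₀] using ht0
  set d : Fin 2 → ℝ := fun b => σ₀ b ^ (-(s - 1) / (2 * s)) with hd
  have hd0 : ∀ b, 0 ≤ d b := fun b => Real.rpow_nonneg (hσp b).le _
  have hd2 : ∀ b, d b ^ 2 = σ₀ b ^ (-((s - 1) / s)) := by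
    intro b
    rw [hd]
    simp only
    rw [← Real.rpow_natCast (σ₀ b ^ (-(s - 1) / (2 * s))) 2, ← Real.rpow_mul (hσp b).le]
    congr 1
    push_cast
    field_simp
  have e0 : σ₀ 0 = 1 - t := rfl
  have e1 : σ₀ 1 = t := rfl
  have hΛ' : ∀ p q : ℝ, 0 ≤ p → 0 ≤ q →
      e2 s (d 0 ^ 2 * ((1 - γ * ν) * p + γ * (1 - ν) * q) +
          d 1 ^ 2 * (γ * ν * p + (1 - γ * (1 - ν)) * q))
        ((d 0 * d 1) ^ 2 * (((1 - γ * ν) * p + γ * (1 - ν) * q) *
          (γ * ν * p + (1 - γ * (1 - ν)) * q) - (1 - γ) * (p * q))) ≤ (L * (p + q)) ^ s := by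
    intro p q hp hq
    have h := hΛ p q hp hq
    rw [mul_pow, hd2, hd2, e0, e1]
    exact h
  have hwv : ∀ x : Fin n → Fin 2, wv σ₀ x ^ (-(s - 1) / (2 * s)) = wv d x := by
    intro x
    unfold wv
    rw [hd]
    simp only
    rw [Real.finsetProd_rpow _ _ fun i _ => (hσp _).le]
  have hσpos : ∀ x : Fin n → Fin 2, 0 < wv σ₀ x := fun x => Finset.prod_pos fun i _ => hσp _
  have hσw : ∀ x y : Fin n → Fin 2, ones x = ones y → wv σ₀ x = wv σ₀ y := by
    intro x y h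
    rw [wv_ones, wv_ones, h]
  have hEle : ∀ m, (1 - E m).PosSemidef := by
    intro m
    have h1 : (1 - E m) = (1 - ∑ m, E m) + ∑ m' ∈ Finset.univ.erase m, E m' := by
      rw [← Finset.add_sum_erase Finset.univ E (Finset.mem_univ m)]
      abel
    rw [h1]
    exact hE1.add (posSemidef_sum _ fun m' _ => hE m')
  have hcard : (Fintype.card (Fin (n + 1)) : ℝ) = (n : ℝ) + 1 := by
    rw [Fintype.card_fin]
    push_cast
    ring
  have hbound : ∀ m, (E m * tensorPower (gadc γ ν) n (ρ m)).trace.re ≤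
      ((n : ℝ) + 1) * (lam * (∑ x, wv σ₀ x * (E m x x).re) + lam ^ (1 - s) * (L ^ n) ^ s) := by
    intro m
    have h := code_bound hs1 (ones (n := n)) (wv σ₀) hσpos hσw (hE m) (hEle m)
      (tensorPower_posSemidef hγ hν n (hρ m).1) hlam
    rw [hcard] at h
    simp only [hwv] at h
    refine h.trans (mul_le_mul_of_nonneg_left ?_ (by positivity))
    have h2 := tp_TD hs1 hs2 hγ hν hd0 hL hΛ' n (hρ m)
    unfold TD Dm at h2
    have h3 : 0 ≤ lam ^ (1 - s) := Real.rpow_nonneg hlam.le _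
    have h4 := mul_le_mul_of_nonneg_left h2 h3
    linarith
  refine (Finset.sum_le_sum fun m _ => hbound m).trans ?_
  rw [← Finset.mul_sum, Finset.sum_add_distrib, ← Finset.mul_sum, Finset.sum_const,
    Finset.card_univ, Fintype.card_fin, nsmul_eq_mul]
  refine mul_le_mul_of_nonneg_left ?_ (by positivity)
  have h1 : ∑ m, ∑ x, wv σ₀ x * (E m x x).re ≤ 1 := by
    rw [Finset.sum_comm]
    have h2 : ∀ x : Fin n → Fin 2, ∑ m, wv σ₀ x * (E m x x).re ≤ wv σ₀ x := by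
      intro x
      rw [← Finset.mul_sum]
      have h3 := (Complex.le_def.1 (hE1.diag_nonneg (i := x))).1
      rw [Matrix.sub_apply, one_apply_eq, Matrix.sum_apply, Complex.sub_re, Complex.one_re,
        Complex.re_sum, Complex.zero_re] at h3
      have h4 : ∑ m, (E m x x).re ≤ 1 := by linarith
      exact mul_le_of_le_one_right (hσpos x).le h4
    refine (Finset.sum_le_sum fun x _ => h2 x).trans ?_
    rw [sum_wv, e0, e1]
    simp
  have h2 := mul_le_mul_of_nonneg_left h1 hlam.le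
  have h3 : lam ^ (1 - s) * (M * (L ^ n) ^ s) = M * (lam ^ (1 - s) * (L ^ n) ^ s) := by ring
  rw [h3]
  linarith

theorem eta2_w {w a γ ν : ℝ} (hw : 0 ≤ w) :
    eta2 (w * (1 - a) + w * a) (outDet γ ν (w * (1 - a)) (w * a)) -
      negMulLog (w * (1 - a) + w * a) = w * eta2 1 (outDet γ ν (1 - a) a) := by
  have h9 := eta2_scale (T := 1) (D := outDet γ ν (1 - a) a) hw
  have h10 : w * (1 - a) + w * a = w * 1 := by ring
  have h11 : outDet γ ν (w * (1 - a)) (w * a) = w ^ 2 * outDet γ ν (1 - a) a := by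
    unfold outDet
    ring
  rw [h10, h11, h9, mul_one]
  ring

theorem H_convex {γ ν : ℝ} (hγ : γ ∈ Set.Icc (0 : ℝ) 1) (hν : ν ∈ Set.Icc (0 : ℝ) 1)
    {q₀ q ε : ℝ} (hq₀ : q₀ ∈ Set.Icc (0 : ℝ) 1) (hq : q ∈ Set.Icc (0 : ℝ) 1)
    (hε : ε ∈ Set.Icc (0 : ℝ) 1) :
    eta2 1 (outDet γ ν (1 - ((1 - ε) * q₀ + ε * q)) ((1 - ε) * q₀ + ε * q)) ≤
      (1 - ε) * eta2 1 (outDet γ ν (1 - q₀) q₀) + ε * eta2 1 (outDet γ ν (1 - q) q) := by
  have hε0 := hε.1
  have hε1 := hε.2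
  have h := outDet_jensen hγ hν Finset.univ ![(1 - ε) * (1 - q₀), ε * (1 - q)]
    ![(1 - ε) * q₀, ε * q]
    (by
      intro i _
      fin_cases i
      · exact mul_nonneg (by linarith) (by linarith [hq₀.2])
      · exact mul_nonneg hε0 (by linarith [hq.2]))
    (by
      intro i _
      fin_cases i
      · exact mul_nonneg (by linarith) hq₀.1
      · exact mul_nonneg hε0 hq.1)
    (by
      simp only [Fin.sum_univ_two, cons_val_zero, cons_val_one]
      ring)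
  simp only [Fin.sum_univ_two, cons_val_zero, cons_val_one] at h
  rw [eta2_w (by linarith : 0 ≤ 1 - ε), eta2_w hε0] at h
  have e1 : 1 - ((1 - ε) * q₀ + ε * q) = (1 - ε) * (1 - q₀) + ε * (1 - q) := by ring
  rw [e1]
  exact h

theorem outDet_nonneg {γ ν : ℝ} (hγ : γ ∈ Set.Icc (0 : ℝ) 1) (hν : ν ∈ Set.Icc (0 : ℝ) 1)
    {p q : ℝ} (hp : 0 ≤ p) (hq : 0 ≤ q) : 0 ≤ outDet γ ν p q := by
  obtain ⟨c1, c2, c3, c4⟩ := gadc_coeffs hγ hν
  rw [outDet_eq_qform]
  exact qform_nonneg (mul_nonneg c1 c3) (mul_nonneg c2 c3) (mul_nonneg c2 c4) hp hq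

/-- the scalar input of the strong converse -/
theorem exists_params {γ ν : ℝ} (hγ : γ ∈ Set.Icc (0 : ℝ) 1) (hν : ν ∈ Set.Icc (0 : ℝ) 1)
    {R : ℝ} (hR : capacity (gadc γ ν) * Real.log 2 < R) :
    ∃ s t : ℝ, 1 < s ∧ s < 2 ∧ 0 < t ∧ t < 1 ∧ ∀ p q : ℝ, 0 ≤ p → 0 ≤ q →
      e2 s ((1 - t) ^ (-((s - 1) / s)) * ((1 - γ * ν) * p + γ * (1 - ν) * q) +
          t ^ (-((s - 1) / s)) * (γ * ν * p + (1 - γ * (1 - ν)) * q))
        ((1 - t) ^ (-((s - 1) / s)) * t ^ (-((s - 1) / s)) * outDet γ ν p q) ≤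
        (Real.exp ((s - 1) * R / s) * (p + q)) ^ s := by
  have hlog : 0 < Real.log 2 := Real.log_pos one_lt_two
  rw [capacity_eq_holevo hγ hν] at hR
  obtain ⟨⟨q₀, hq₀, hf₀⟩, hmax⟩ := holevo_isGreatest hγ hν
  set C := holevo (gadc γ ν) * Real.log 2 with hC
  have hfv : ∀ q, fval γ ν q * Real.log 2 =
      negMulLog (γ * ν + (1 - γ) * q) + negMulLog (1 - (γ * ν + (1 - γ) * q)) -
        eta2 1 (outDet γ ν (1 - q) q) := by
    intro q
    unfold fval
    rw [div_mul_cancel₀ _ hlog.ne', add_comm ((1 - γ) * q)]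
  have hτ : ∀ q ∈ Icc (0 : ℝ) 1, γ * ν + (1 - γ) * q ∈ Icc (0 : ℝ) 1 := by
    intro q hq
    have g1 := hγ.1
    have g2 := hγ.2
    have n1 := hν.1
    have n2 := hν.2
    have a1 := hq.1
    have a2 := hq.2
    constructor
    · exact add_nonneg (mul_nonneg g1 n1) (mul_nonneg (by linarith) a1)
    · nlinarith
  have hmax' : ∀ q ∈ Icc (0 : ℝ) 1,
      negMulLog (γ * ν + (1 - γ) * q) + negMulLog (1 - (γ * ν + (1 - γ) * q)) -
        eta2 1 (outDet γ ν (1 - q) q) ≤ C := by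
    intro q hq
    rw [← hfv, hC]
    exact mul_le_mul_of_nonneg_right (hmax ⟨q, hq, rfl⟩) hlog.le
  obtain ⟨t, ht0, ht1, ht⟩ := exists_t (fun q => eta2 1 (outDet γ ν (1 - q) q)) (γ * ν) (1 - γ)
    hτ (fun q₁ h1 q h2 ε h3 => H_convex hγ hν h1 h2 h3) hq₀
    (by rw [← hfv, hf₀]) hmax' (R := (C + R) / 2) (by linarith)
  obtain ⟨δ, hδ0, hδ1, hδ⟩ := exists_delta (fun q => outDet γ ν (1 - q) q)
    (by unfold outDet; fun_prop)
    (fun q hq => outDet_nonneg hγ hν (by linarith [hq.2]) hq.1) (γ * ν) (1 - γ) hτ ht0 ht1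
    (R := R) (by linarith) ht
  refine ⟨1 + δ, t, by linarith, by linarith, ht0, ht1, fun p q hp hq => ?_⟩
  have hs1 : (1 + δ - 1) = δ := by ring
  rw [hs1]
  have hspos : 0 < 1 + δ := by linarith
  rcases (add_nonneg hp hq).eq_or_lt with h0 | h0
  · have hp0 : p = 0 := by linarith
    have hq0 : q = 0 := by linarith
    subst hp0
    subst hq0
    have : outDet γ ν 0 0 = 0 := by simp [outDet]
    rw [this]
    simp [e2, Real.zero_rpow hspos.ne']
  · obtain ⟨c, hc⟩ : ∃ c, c = p + q := ⟨_, rfl⟩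
    rw [← hc] at h0 ⊢
    obtain ⟨a, ha⟩ : ∃ a, a = q / c := ⟨_, rfl⟩
    have hq1 : a ∈ Icc (0 : ℝ) 1 := by
      rw [ha]
      exact ⟨by positivity, by rw [div_le_one h0]; linarith⟩
    have h1 := hδ a hq1
    have eq' : q = c * a := by rw [ha]; field_simp
    have ep : p = c * (1 - a) := by linarith
    have hT : (1 - t) ^ (-(δ / (1 + δ))) * ((1 - γ * ν) * p + γ * (1 - ν) * q) +
          t ^ (-(δ / (1 + δ))) * (γ * ν * p + (1 - γ * (1 - ν)) * q) =
        c * ((1 - t) ^ (-(δ / (1 + δ))) * (1 - (γ * ν + (1 - γ) * a)) +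
        t ^ (-(δ / (1 + δ))) * (γ * ν + (1 - γ) * a)) := by
      rw [ep, eq']
      ring
    have hD : (1 - t) ^ (-(δ / (1 + δ))) * t ^ (-(δ / (1 + δ))) * outDet γ ν p q =
        c ^ 2 * ((1 - t) ^ (-(δ / (1 + δ))) * t ^ (-(δ / (1 + δ))) *
          outDet γ ν (1 - a) a) := by
      rw [ep, eq']
      unfold outDet
      ring
    have hx := hτ _ hq1
    have ha0 : 0 ≤ (1 - t) ^ (-(δ / (1 + δ))) := Real.rpow_nonneg (by linarith) _
    have hb : 0 ≤ t ^ (-(δ / (1 + δ))) := Real.rpow_nonneg ht0.le _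
    rw [hT, hD, e2_scale h0.le
      (add_nonneg (mul_nonneg ha0 (sub_nonneg.2 hx.2)) (mul_nonneg hb hx.1))
      (mul_nonneg (mul_nonneg ha0 hb) (outDet_nonneg hγ hν (by linarith [hq1.2]) hq1.1)),
      Real.mul_rpow (Real.exp_pos _).le h0.le, ← Real.exp_mul, div_mul_cancel₀ _ hspos.ne',
      mul_comm (Real.exp _)]
    exact mul_le_mul_of_nonneg_left h1 (Real.rpow_nonneg h0.le _)

/-- **The strong converse**, exponential form. -/
theorem strong_converse {γ ν : ℝ} (hγ : γ ∈ Set.Icc (0 : ℝ) 1) (hν : ν ∈ Set.Icc (0 : ℝ) 1)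
    {R : ℝ} (hR : capacity (gadc γ ν) < R) :
    ∃ K c : ℝ, 0 < K ∧ 0 < c ∧ ∀ (n M : ℕ), (2 : ℝ) ^ (n * R) ≤ M →
      ∀ (ρ E : Fin M → Matrix (Fin n → Fin 2) (Fin n → Fin 2) ℂ), (∀ m, IsState (ρ m)) →
        (∀ m, (E m).PosSemidef) → (1 - ∑ m, E m).PosSemidef →
        (∑ m, (E m * tensorPower (gadc γ ν) n (ρ m)).trace.re) / M ≤ K * 2 ^ (-(c * n)) := by
  have hlog : 0 < Real.log 2 := Real.log_pos one_lt_two
  set C := capacity (gadc γ ν) * Real.log 2 with hC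
  have hCR : C < R * Real.log 2 := mul_lt_mul_of_pos_right hR hlog
  set g := (R * Real.log 2 - C) / 2 with hg
  have hg0 : 0 < g := by rw [hg]; linarith
  obtain ⟨s, t, hs1, hs2, ht0, ht1, hΛ⟩ := exists_params hγ hν (R := C + g / 2)
    (by rw [← hC]; linarith)
  have hs0 : 0 < s := by linarith
  -- the exponents
  set x := (s - 1) * (g / 2) with hx
  have hx0 : 0 < x := by
    rw [hx]
    exact mul_pos (by linarith) (by linarith)
  have hxg : x ≤ g := by
    rw [hx]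
    nlinarith
  refine ⟨2 * (1 + 2 / x), x / (2 * Real.log 2), by positivity, by positivity, ?_⟩
  intro n M hM ρ E hρ hE hE1
  have hM0 : (0 : ℝ) < M := lt_of_lt_of_le (Real.rpow_pos_of_pos two_pos _) hM
  have hb := success_le hs1 hs2 hγ hν ht0 ht1 (Real.exp_pos _).le hΛ n M ρ E hρ hE hE1
    (lam := Real.exp (n * (C + g))) (Real.exp_pos _)
  have hn0 : (0 : ℝ) ≤ n := Nat.cast_nonneg n
  have e1 : (Real.exp ((s - 1) * (C + g / 2) / s) ^ n) ^ s =
      Real.exp (n * ((s - 1) * (C + g / 2))) := by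
    rw [← Real.exp_nat_mul, ← Real.exp_mul]
    congr 1
    field_simp
  have e3 : Real.exp (n * (C + g)) ^ (1 - s) = Real.exp (-(n * ((s - 1) * (C + g)))) := by
    rw [← Real.exp_mul]
    congr 1
    ring
  have e4 : Real.exp (-(n * ((s - 1) * (C + g)))) * Real.exp (n * ((s - 1) * (C + g / 2))) =
      Real.exp (-(n * x)) := by
    rw [← Real.exp_add, hx]
    congr 1
    ring
  have e5 : Real.exp (n * (C + g)) / M ≤ Real.exp (-(n * x)) := by
    have h1 : Real.exp (n * (R * Real.log 2)) ≤ M := by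
      refine le_trans (le_of_eq ?_) hM
      rw [Real.rpow_def_of_pos two_pos]
      congr 1
      ring
    rw [div_le_iff₀ hM0]
    have h2 : Real.exp (n * (C + g)) ≤ Real.exp (-(n * x)) * Real.exp (n * (R * Real.log 2)) := by
      rw [← Real.exp_add]
      apply Real.exp_le_exp.2
      have h3 : R * Real.log 2 = C + 2 * g := by rw [hg]; ring
      rw [h3]
      nlinarith [mul_le_mul_of_nonneg_left hxg hn0]
    exact h2.trans (mul_le_mul_of_nonneg_left h1 (Real.exp_pos _).le)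
  have hb2 : (∑ m, (E m * tensorPower (gadc γ ν) n (ρ m)).trace.re) / M ≤
      ((n : ℝ) + 1) * (2 * Real.exp (-(n * x))) := by
    rw [div_le_iff₀ hM0]
    refine hb.trans ?_
    rw [e1, e3, mul_assoc ((n : ℝ) + 1)]
    refine mul_le_mul_of_nonneg_left ?_ (by positivity)
    have h1 : Real.exp (n * (C + g)) ≤ Real.exp (-(n * x)) * M := by
      rw [div_le_iff₀ hM0] at e5
      exact e5
    have h2 : Real.exp (-(n * ((s - 1) * (C + g)))) *
        (M * Real.exp (n * ((s - 1) * (C + g / 2)))) = Real.exp (-(n * x)) * M := by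
      rw [← e4]
      ring
    rw [h2]
    linarith
  refine hb2.trans ?_
  have e6 : (2 : ℝ) ^ (-(x / (2 * Real.log 2) * n)) = Real.exp (-(n * x / 2)) := by
    rw [Real.rpow_def_of_pos two_pos]
    congr 1
    field_simp
  rw [e6]
  have e7 : Real.exp (-(n * x)) = Real.exp (-(n * x / 2)) * Real.exp (-(n * x / 2)) := by
    rw [← Real.exp_add]
    congr 1
    ring
  have e8 : ((n : ℝ) + 1) * Real.exp (-(n * x / 2)) ≤ 1 + 2 / x := by
    have h1 : (n : ℝ) + 1 ≤ (1 + 2 / x) * Real.exp (n * x / 2) := by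
      have h2 := Real.add_one_le_exp (n * x / 2)
      have h3 : 0 ≤ 1 + 2 / x := by positivity
      refine le_trans ?_ (mul_le_mul_of_nonneg_left h2 h3)
      have h4 : (1 + 2 / x) * (n * x / 2 + 1) = n * x / 2 + 1 + n + 2 / x := by
        field_simp
        ring
      rw [h4]
      have h5 : 0 ≤ (n : ℝ) * x / 2 := by positivity
      have h6 : 0 ≤ 2 / x := by positivity
      linarith
    rw [Real.exp_neg, ← div_eq_mul_inv, div_le_iff₀ (Real.exp_pos _)]
    exact h1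
  rw [e7]
  have h9 : 0 ≤ Real.exp (-(n * x / 2)) := (Real.exp_pos _).le
  have h10 := mul_le_mul_of_nonneg_right e8 h9
  nlinarith

end Vale.Agent.P358.SC
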