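import Vale.Agent.P358.H697.Ten

set_option autoImplicit false

/-!
# P358 / H697 / Ren: the maximal output `s`-norms are multiplicative, `1 ≤ s ≤ 2`
-/

namespace Vale.Agent.P358.SC

open Matrix Real Set
open scoped ComplexOrder

theorem e2_roots {s a b : ℝ} : e2 s (a + b) (a * b) = a ^ s + b ^ s := by
  unfold e2
  have h : (a + b) ^ 2 - 4 * (a * b) = (a - b) ^ 2 := by ring
  rw [h, Real.sqrt_sq_eq_abs]
  rcases le_total 0 (a - b) with h1 | h1
  · rw [abs_of_nonneg h1]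
    congr 2 <;> ring
  · rw [abs_of_nonpos h1, add_comm (a ^ s)]
    congr 2 <;> ring

theorem tp_two {s : ℝ} {X : Matrix (Fin 2) (Fin 2) ℂ} (hX : X.IsHermitian) :
    tp s X = e2 s X.trace.re X.det.re := by
  have h1 : X.trace.re = hX.eigenvalues 0 + hX.eigenvalues 1 := by
    rw [hX.trace_eq_sum_eigenvalues, Fin.sum_univ_two]
    simp
  have h2 : X.det.re = hX.eigenvalues 0 * hX.eigenvalues 1 := by
    rw [hX.det_eq_prod_eigenvalues, Fin.prod_univ_two]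
    simp
  rw [h1, h2, e2_roots, tp_eq hX, Fin.sum_univ_two]

theorem tp_prodM {ι : Type} [Fintype ι] [DecidableEq ι] {s : ℝ} {n : ℕ}
    {σ : Fin n → Matrix ι ι ℂ} (h : ∀ i, (σ i).PosSemidef) :
    tp s (prodM σ) = ∏ i, tp s (σ i) := by
  choose U hU _ hUd using fun i => exists_unitary_diag (h i).1
  have e : prodM σ = prodM U *
      diagonal (fun x => ((∏ i, (h i).1.eigenvalues (x i) : ℝ) : ℂ)) * (prodM U)ᴴ := by
    have hd : (diagonal (fun x => ((∏ i, (h i).1.eigenvalues (x i) : ℝ) : ℂ)) :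
        Matrix (Fin n → ι) (Fin n → ι) ℂ) =
        prodM (fun i => diagonal (fun j => ((h i).1.eigenvalues j : ℂ))) := by
      rw [prodM_diagonal]
      congr 1
      funext x
      push_cast
      rfl
    rw [hd, prodM_conjTranspose, prodM_mul, prodM_mul]
    congr 1
    funext i
    exact hUd i
  have hU' : (prodM U)ᴴ * prodM U = 1 := by
    rw [prodM_conjTranspose, prodM_mul, ← prodM_one]
    congr 1
    funext i
    exact hU i
  rw [tp_of_conj hU' _ e]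
  have h1 : ∀ i, tp s (σ i) = ∑ j, (h i).1.eigenvalues j ^ s := fun i => tp_eq (h i).1
  simp only [h1]
  rw [Finset.prod_univ_sum, Fintype.piFinset_univ]
  refine Finset.sum_congr rfl fun x _ => ?_
  rw [Real.finsetProd_rpow _ _ fun i _ => (h i).eigenvalues_nonneg _]

theorem e2_anti {s : ℝ} (hs1 : 1 < s) (hs2 : s < 2) {T D D' : ℝ} (hT : 0 ≤ T) (hD : 0 ≤ D)
    (h : D ≤ D') (h4 : 4 * D' ≤ T ^ 2) : e2 s T D' ≤ e2 s T D := by
  refine HasPow.mono hs1 hs2 (hasPow_e2 hs1 hs2 hT (hD.trans h) h4)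
    (hasPow_e2 hs1 hs2 hT hD (by linarith)) fun t ht => ?_
  have h1 : 0 < t ^ 2 + t * T + D := by positivity
  have h2 : Real.log (t ^ 2 + t * T + D) ≤ Real.log (t ^ 2 + t * T + D') :=
    Real.log_le_log h1 (by linarith)
  linarith

theorem outDet_eq (γ ν p q : ℝ) :
    outDet γ ν p q = (p + q) ^ 2 * (γ * ν * (1 - ν)) + γ * (1 - γ) * (q - ν * (p + q)) ^ 2 := by
  unfold outDet
  ring

theorem four_outDet_le {γ ν p q : ℝ} (hγ : γ ≤ 1) (hp : 0 ≤ p) (hq : 0 ≤ q) :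
    4 * outDet γ ν p q ≤ (p + q) ^ 2 := by
  have h : (p + q) ^ 2 - 4 * outDet γ ν p q =
      (((1 - γ * ν) * p + γ * (1 - ν) * q) - (γ * ν * p + (1 - γ * (1 - ν)) * q)) ^ 2 +
        4 * (1 - γ) * (p * q) := by
    unfold outDet
    ring
  have h1 : 0 ≤ 4 * (1 - γ) * (p * q) := mul_nonneg (by linarith) (mul_nonneg hp hq)
  nlinarith [sq_nonneg (((1 - γ * ν) * p + γ * (1 - ν) * q) -
    (γ * ν * p + (1 - γ * (1 - ν)) * q))]

theorem dstar_nonneg {γ ν : ℝ} (hγ : γ ∈ Set.Icc (0 : ℝ) 1) (hν : ν ∈ Set.Icc (0 : ℝ) 1) :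
    0 ≤ γ * ν * (1 - ν) :=
  mul_nonneg (mul_nonneg hγ.1 hν.1) (by linarith [hν.2])

theorem TD_one (γ ν : ℝ) (n : ℕ) (X : Matrix (Fin n → Fin 2) (Fin n → Fin 2) ℂ) :
    TD γ ν (fun _ => 1) n X = tensorPower (gadc γ ν) n X := by
  ext x y
  rw [TD_apply]
  simp [wv]

theorem tp_le_open {s : ℝ} (hs1 : 1 < s) (hs2 : s < 2) {γ ν : ℝ} (hγ : γ ∈ Set.Icc (0:ℝ) 1)
    (hν : ν ∈ Set.Icc (0:ℝ) 1) (n : ℕ) {X : Matrix (Fin n → Fin 2) (Fin n → Fin 2) ℂ}
    (hX : IsState X) :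
    tp s (tensorPower (gadc γ ν) n X) ≤ (e2 s 1 (γ * ν * (1 - ν))) ^ n := by
  have hs0 : s ≠ 0 := by linarith
  have hd := dstar_nonneg hγ hν
  have he : 0 ≤ e2 s 1 (γ * ν * (1 - ν)) := e2_nonneg zero_le_one hd
  set L := (e2 s 1 (γ * ν * (1 - ν))) ^ (1 / s) with hL
  have hL0 : 0 ≤ L := Real.rpow_nonneg he _
  have hLs : L ^ s = e2 s 1 (γ * ν * (1 - ν)) := by
    rw [hL, ← Real.rpow_mul he, one_div, inv_mul_cancel₀ hs0, Real.rpow_one]
  have h := tp_TD hs1 hs2 hγ hν (d := fun _ => 1) (fun _ => zero_le_one) hL0 (by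
    intro p q hp hq
    have h1 : (1 : ℝ) ^ 2 * ((1 - γ * ν) * p + γ * (1 - ν) * q) +
          1 ^ 2 * (γ * ν * p + (1 - γ * (1 - ν)) * q) = p + q := by ring
    have h2 : ((1 : ℝ) * 1) ^ 2 * (((1 - γ * ν) * p + γ * (1 - ν) * q) *
          (γ * ν * p + (1 - γ * (1 - ν)) * q) - (1 - γ) * (p * q)) = outDet γ ν p q := by
      unfold outDet
      ring
    rw [h1, h2, Real.mul_rpow hL0 (add_nonneg hp hq), hLs]
    have h3 : (p + q) ^ 2 * (γ * ν * (1 - ν)) ≤ outDet γ ν p q := by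
      rw [outDet_eq]
      have : 0 ≤ γ * (1 - γ) * (q - ν * (p + q)) ^ 2 :=
        mul_nonneg (mul_nonneg hγ.1 (by linarith [hγ.2])) (sq_nonneg _)
      linarith
    refine (e2_anti hs1 hs2 (add_nonneg hp hq) (mul_nonneg (sq_nonneg _) hd) h3
      (four_outDet_le hγ.2 hp hq)).trans (le_of_eq ?_)
    have h4 := e2_scale (s := s) (T := 1) (D := γ * ν * (1 - ν)) (add_nonneg hp hq) zero_le_one hd
    rw [mul_one] at h4
    rw [h4, mul_comm]) n hX
  rw [TD_one] at h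
  refine h.trans (le_of_eq ?_)
  rw [← hLs, ← Real.rpow_natCast L n, ← Real.rpow_natCast (L ^ s) n, ← Real.rpow_mul hL0,
    ← Real.rpow_mul hL0, mul_comm]

theorem tp_le {s : ℝ} (hs : s ∈ Set.Icc (1 : ℝ) 2) {γ ν : ℝ} (hγ : γ ∈ Set.Icc (0:ℝ) 1)
    (hν : ν ∈ Set.Icc (0:ℝ) 1) (n : ℕ) {X : Matrix (Fin n → Fin 2) (Fin n → Fin 2) ℂ}
    (hX : IsState X) :
    tp s (tensorPower (gadc γ ν) n X) ≤ (e2 s 1 (γ * ν * (1 - ν))) ^ n := by
  have hpos := tensorPower_posSemidef hγ hν n hX.1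
  have hcl : closure (Ioo (1 : ℝ) 2) = Icc 1 2 := closure_Ioo (by norm_num)
  have hcont : ∀ a : ℝ, ContinuousOn (fun s : ℝ => a ^ s) (Icc (1 : ℝ) 2) := by
    intro a s hs
    exact (Real.continuousAt_const_rpow' (by linarith [hs.1] : s ≠ 0)).continuousWithinAt
  refine le_on_closure (f := fun s => tp s (tensorPower (gadc γ ν) n X))
    (g := fun s => (e2 s 1 (γ * ν * (1 - ν))) ^ n) (s := Ioo (1 : ℝ) 2) ?_ ?_ ?_ ?_
  · intro s hs
    exact tp_le_open hs.1 hs.2 hγ hν n hX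
  · rw [hcl]
    simp only [tp_eq hpos.1]
    exact continuousOn_finsetSum _ fun i _ => hcont _
  · rw [hcl]
    unfold e2
    exact ((hcont _).add (hcont _)).pow n
  · rw [hcl]
    exact hs

/-- **The maximal output `s`-norms**, `1 ≤ s ≤ 2`. -/
theorem maxOut {s : ℝ} (hs : s ∈ Set.Icc (1 : ℝ) 2) {γ ν : ℝ} (hγ : γ ∈ Set.Icc (0:ℝ) 1)
    (hν : ν ∈ Set.Icc (0:ℝ) 1) (n : ℕ) :
    IsGreatest {x | ∃ ρ : Matrix (Fin n → Fin 2) (Fin n → Fin 2) ℂ, IsState ρ ∧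
        x = tp s (tensorPower (gadc γ ν) n ρ)}
      ((((1 + √(1 - 4 * (γ * ν * (1 - ν)))) / 2) ^ s +
        ((1 - √(1 - 4 * (γ * ν * (1 - ν)))) / 2) ^ s) ^ n) := by
  have he : (((1 + √(1 - 4 * (γ * ν * (1 - ν)))) / 2) ^ s +
        ((1 - √(1 - 4 * (γ * ν * (1 - ν)))) / 2) ^ s) = e2 s 1 (γ * ν * (1 - ν)) := by
    unfold e2
    rw [one_pow]
  rw [he]
  have hν1 : 0 ≤ 1 - ν := by linarith [hν.2]
  constructor
  · have hst : IsState (Vale.Agent.P358.psi true (1 - ν) ν) :=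
      ⟨Vale.Agent.P358.psi_posSemidef true hν1 hν.1, by rw [Vale.Agent.P358.psi_trace]; simp⟩
    refine ⟨prodM fun _ => Vale.Agent.P358.psi true (1 - ν) ν, prodM_isState fun _ => hst, ?_⟩
    have hp := gadc_psi_posSemidef hγ hν true hν1 hν.1
    rw [tensorPower_prodM, tp_prodM fun _ => hp, Finset.prod_const, Finset.card_univ,
      Fintype.card_fin, tp_two hp.1, gadc_psi_trace, gadc_psi_det hγ.2 ν true hν1 hν.1]
    congr 2
    · ring
    · rw [outDet_eq]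
      ring
  · rintro _ ⟨ρ, hρ, rfl⟩
    exact tp_le hs hγ hν n hρ

end Vale.Agent.P358.SC
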