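import Vale.Agent.P358.H697.DefsS
import Vale.Agent.P358.H697.Main
import Vale.Agent.P358.H697.Ren

set_option autoImplicit false

/-!
# P358 / H697 / Fin: the three clauses in the form of the hand-in
-/

namespace Vale.Agent.P358.SC

open Matrix
open scoped ComplexOrder

theorem traceRpow_eq {ι : Type} [Fintype ι] [DecidableEq ι] (s : ℝ) (X : Matrix ι ι ℂ) :
    traceRpow s X = tp s X := rfl

theorem maxOut' {γ ν : ℝ} (hγ : γ ∈ Set.Icc (0:ℝ) 1) (hν : ν ∈ Set.Icc (0:ℝ) 1) (s : ℝ)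
    (hs : s ∈ Set.Icc (1 : ℝ) 2) (n : ℕ) :
    IsGreatest {x | ∃ ρ : Matrix (Fin n → Fin 2) (Fin n → Fin 2) ℂ, IsState ρ ∧
        x = traceRpow s (tensorPower (gadc γ ν) n ρ)}
      ((((1 + √(1 - 4 * (γ * ν * (1 - ν)))) / 2) ^ s +
        ((1 - √(1 - 4 * (γ * ν * (1 - ν)))) / 2) ^ s) ^ n) :=
  maxOut hs hγ hν n

end Vale.Agent.P358.SC
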