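import Vale.Agent.P358.H697.Tr

set_option autoImplicit false

/-!
# P358 / H697 / Kap: the scalar function and its Jensen inequality
-/

namespace Vale.Agent.P358.SC

open Real Set

/-- power sum of the two roots of `x ^ 2 - T x + D` -/
noncomputable def e2 (s T D : ℝ) : ℝ :=
  ((T + √(T ^ 2 - 4 * D)) / 2) ^ s + ((T - √(T ^ 2 - 4 * D)) / 2) ^ s

theorem hasPow_e2 {s : ℝ} (hs1 : 1 < s) (hs2 : s < 2) {T D : ℝ} (hT : 0 ≤ T) (hD : 0 ≤ D)
    (h : 4 * D ≤ T ^ 2) :
    HasPow s (fun t => T / t - (Real.log (t ^ 2 + t * T + D) - 2 * Real.log t)) (e2 s T D) := by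
  have h1 : 0 ≤ (T + √(T ^ 2 - 4 * D)) / 2 := by positivity
  have h2 : 0 ≤ (T - √(T ^ 2 - 4 * D)) / 2 := by
    have := sqrt_le_T hT hD
    linarith
  have h3 := (hasPow_psi hs1 hs2 h1).add (hasPow_psi hs1 hs2 h2)
  refine h3.congr fun t ht => ?_
  unfold psi
  have hs : √(T ^ 2 - 4 * D) ^ 2 = T ^ 2 - 4 * D := Real.sq_sqrt (by linarith)
  obtain ⟨x, hx⟩ : ∃ x, x = (T + √(T ^ 2 - 4 * D)) / 2 := ⟨_, rfl⟩
  obtain ⟨y, hy⟩ : ∃ y, y = (T - √(T ^ 2 - 4 * D)) / 2 := ⟨_, rfl⟩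
  have e1 : x + y = T := by rw [hx, hy]; ring
  have e3 : x * y = D := by rw [hx, hy]; nlinarith [hs]
  rw [← hx] at h1 ⊢
  rw [← hy] at h2 ⊢
  have e4 : t ^ 2 + t * T + D = (t + x) * (t + y) := by rw [← e1, ← e3]; ring
  have e5 : 1 + x / t = (t + x) / t := by field_simp
  have e6 : 1 + y / t = (t + y) / t := by field_simp
  rw [e4, e5, e6, Real.log_mul (by positivity) (by positivity),
    Real.log_div (by positivity) ht.ne', Real.log_div (by positivity) ht.ne', ← e1]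
  ring

theorem e2_nonneg {s T D : ℝ} (hT : 0 ≤ T) (hD : 0 ≤ D) : 0 ≤ e2 s T D := by
  have h1 : 0 ≤ (T + √(T ^ 2 - 4 * D)) / 2 := by positivity
  have h2 : 0 ≤ (T - √(T ^ 2 - 4 * D)) / 2 := by
    have := sqrt_le_T hT hD
    linarith
  exact add_nonneg (Real.rpow_nonneg h1 _) (Real.rpow_nonneg h2 _)

theorem e2_scale {s T D c : ℝ} (hc : 0 ≤ c) (hT : 0 ≤ T) (hD : 0 ≤ D) :
    e2 s (c * T) (c ^ 2 * D) = c ^ s * e2 s T D := by
  unfold e2
  have h1 : √((c * T) ^ 2 - 4 * (c ^ 2 * D)) = c * √(T ^ 2 - 4 * D) := by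
    have : (c * T) ^ 2 - 4 * (c ^ 2 * D) = c ^ 2 * (T ^ 2 - 4 * D) := by ring
    rw [this, Real.sqrt_mul (by positivity), Real.sqrt_sq hc]
  rw [h1]
  have h2 : 0 ≤ (T + √(T ^ 2 - 4 * D)) / 2 := by positivity
  have h3 : 0 ≤ (T - √(T ^ 2 - 4 * D)) / 2 := by
    have := sqrt_le_T hT hD
    linarith
  have e1 : (c * T + c * √(T ^ 2 - 4 * D)) / 2 = c * ((T + √(T ^ 2 - 4 * D)) / 2) := by ring
  have e3 : (c * T - c * √(T ^ 2 - 4 * D)) / 2 = c * ((T - √(T ^ 2 - 4 * D)) / 2) := by ring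
  rw [e1, e3, Real.mul_rpow hc h2, Real.mul_rpow hc h3]
  ring

/-- the increment -/
noncomputable def kap (s p r q : ℝ) : ℝ := e2 s (p + r + q) (r * q) - r ^ s - q ^ s

theorem hasPow_kap {s : ℝ} (hs1 : 1 < s) (hs2 : s < 2) {p r q : ℝ} (hp : 0 ≤ p) (hr : 0 ≤ r)
    (hq : 0 ≤ q) :
    HasPow s (fun t => p / t - Real.log (1 + t * p / ((t + r) * (t + q)))) (kap s p r q) := by
  have h1 := hasPow_e2 hs1 hs2 (T := p + r + q) (D := r * q) (by positivity) (by positivity)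
    (by nlinarith [sq_nonneg (r - q), mul_nonneg hp hr, mul_nonneg hp hq])
  have h2 := (h1.sub (hasPow_psi hs1 hs2 hr)).sub (hasPow_psi hs1 hs2 hq)
  refine h2.congr fun t ht => ?_
  have a1 : 0 < t + r := by positivity
  have a2 : 0 < t + q := by positivity
  have a3 : 1 + t * p / ((t + r) * (t + q))
      = (t ^ 2 + t * (p + r + q) + r * q) / ((t + r) * (t + q)) := by
    field_simp
    ring
  have e5 : 1 + r / t = (t + r) / t := by field_simp
  have e6 : 1 + q / t = (t + q) / t := by field_simp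
  unfold psi
  rw [a3, e5, e6, Real.log_div (by positivity) (by positivity), Real.log_mul a1.ne' a2.ne',
    Real.log_div (by positivity) ht.ne', Real.log_div (by positivity) ht.ne']
  ring

theorem kap_scale {s p r q c : ℝ} (hc : 0 ≤ c) (hp : 0 ≤ p) (hr : 0 ≤ r) (hq : 0 ≤ q) :
    kap s (c * p) (c * r) (c * q) = c ^ s * kap s p r q := by
  unfold kap
  have h1 := e2_scale (s := s) (T := p + r + q) (D := r * q) hc (by positivity) (by positivity)
  have e1 : c * p + c * r + c * q = c * (p + r + q) := by ring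
  have e3 : c * r * (c * q) = c ^ 2 * (r * q) := by ring
  rw [e1, e3, h1, Real.mul_rpow hc hr, Real.mul_rpow hc hq]
  ring

theorem kap_zero {s : ℝ} (hs1 : 1 < s) (hs2 : s < 2) {r q : ℝ} (hr : 0 ≤ r) (hq : 0 ≤ q) :
    kap s 0 r q = 0 := by
  have h := hasPow_kap hs1 hs2 (le_refl (0 : ℝ)) hr hq
  refine h.unique hs1 hs2 (hasPow_zero s) fun t _ => ?_
  simp

/-- Jensen for the increment -/
theorem kap_jensen {ι : Type*} (S : Finset ι) {s : ℝ} (hs1 : 1 < s) (hs2 : s < 2) {P : ℝ}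
    (hP : 0 < P) (w u v : ι → ℝ) (hw : ∀ i ∈ S, 0 ≤ w i) (hw1 : ∑ i ∈ S, w i = 1)
    (hu : ∀ i ∈ S, 0 ≤ u i) (hv : ∀ i ∈ S, 0 ≤ v i) {U V : ℝ} (hU : ∑ i ∈ S, w i * u i ≤ U)
    (hV : ∑ i ∈ S, w i * v i ≤ V) :
    ∑ i ∈ S, w i * kap s P (u i) (v i) ≤ kap s P U V := by
  have hU0 : 0 ≤ U := (Finset.sum_nonneg fun i hi => mul_nonneg (hw i hi) (hu i hi)).trans hU
  have hV0 : 0 ≤ V := (Finset.sum_nonneg fun i hi => mul_nonneg (hw i hi) (hv i hi)).trans hV
  have H1 := HasPow.sum S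
    (F := fun i t => w i * (P / t - Real.log (1 + t * P / ((t + u i) * (t + v i)))))
    (h := fun i => w i * kap s P (u i) (v i))
    (fun i hi => (hasPow_kap hs1 hs2 hP.le (hu i hi) (hv i hi)).smul (w i))
  refine H1.mono hs1 hs2 (hasPow_kap hs1 hs2 hP.le hU0 hV0) fun t ht => ?_
  have hsum : ∀ (f : ι → ℝ), ∑ i ∈ S, w i * (t + f i) = t + ∑ i ∈ S, w i * f i := by
    intro f
    simp only [mul_add, Finset.sum_add_distrib]
    rw [← Finset.sum_mul, hw1, one_mul]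
  have J := jensen_g S (t := t * P) (by positivity) w (fun i => t + u i) (fun i => t + v i)
    hw hw1 (fun i hi => by have := hu i hi; positivity)
    (fun i hi => by have := hv i hi; positivity) (U := t + U) (V := t + V)
    (by rw [hsum]; linarith) (by rw [hsum]; linarith)
  have e : ∑ i ∈ S, w i * (P / t - Real.log (1 + t * P / ((t + u i) * (t + v i))))
      = P / t - ∑ i ∈ S, w i * Real.log (1 + t * P / ((t + u i) * (t + v i))) := by
    simp only [mul_sub, Finset.sum_sub_distrib]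
    rw [← Finset.sum_mul, hw1, one_mul]
  rw [e]
  linarith

theorem le_of_rpow_le {s x y : ℝ} (hs : 0 < s) (hx : 0 ≤ x) (hy : 0 ≤ y) (h : x ^ s ≤ y ^ s) :
    x ≤ y := (Real.rpow_le_rpow_iff hx hy hs).1 h

/-- **superadditivity of the increment in `ℓ_s`** -/
theorem kap_sum {ι : Type*} (S : Finset ι) {s : ℝ} (hs1 : 1 < s) (hs2 : s < 2) (p r q : ι → ℝ)
    (hp : ∀ i ∈ S, 0 ≤ p i) (hr : ∀ i ∈ S, 0 ≤ r i) (hq : ∀ i ∈ S, 0 ≤ q i) {P R Q : ℝ}
    (hP0 : 0 ≤ P) (hR0 : 0 ≤ R) (hQ0 : 0 ≤ Q) (hP : ∑ i ∈ S, p i ^ s = P ^ s)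
    (hR : ∑ i ∈ S, r i ^ s ≤ R ^ s) (hQ : ∑ i ∈ S, q i ^ s ≤ Q ^ s) :
    ∑ i ∈ S, kap s (p i) (r i) (q i) ≤ kap s P R Q := by
  classical
  have hs0 : s ≠ 0 := by linarith
  rcases hP0.eq_or_lt with h0 | hPpos
  · rw [← h0, Real.zero_rpow hs0] at hP
    have hz : ∀ i ∈ S, p i = 0 := by
      intro i hi
      have := (Finset.sum_eq_zero_iff_of_nonneg
        (fun i hi => Real.rpow_nonneg (hp i hi) s)).1 hP i hi
      exact (Real.rpow_eq_zero (hp i hi) hs0).1 this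
    rw [← h0, kap_zero hs1 hs2 hR0 hQ0]
    refine le_of_eq (Finset.sum_eq_zero fun i hi => ?_)
    rw [hz i hi, kap_zero hs1 hs2 (hr i hi) (hq i hi)]
  · set S' := S.filter fun i => 0 < p i with hS'
    have hsub : ∀ i ∈ S, i ∉ S' → p i = 0 := by
      intro i hi hi'
      by_contra hne
      exact hi' (Finset.mem_filter.2 ⟨hi, lt_of_le_of_ne (hp i hi) (Ne.symm hne)⟩)
    have hmem : ∀ i ∈ S', i ∈ S := fun i hi => (Finset.mem_filter.1 hi).1
    have hpos : ∀ i ∈ S', 0 < p i := fun i hi => (Finset.mem_filter.1 hi).2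
    have hPs : 0 < P ^ s := Real.rpow_pos_of_pos hPpos s
    have e1 : ∑ i ∈ S, kap s (p i) (r i) (q i) = ∑ i ∈ S', kap s (p i) (r i) (q i) := by
      refine (Finset.sum_subset (Finset.filter_subset _ _) fun i hi hi' => ?_).symm
      rw [hsub i hi hi', kap_zero hs1 hs2 (hr i hi) (hq i hi)]
    have e3 : ∑ i ∈ S', p i ^ s = P ^ s := by
      rw [← hP]
      refine Finset.sum_subset (Finset.filter_subset _ _) fun i hi hi' => ?_
      rw [hsub i hi hi', Real.zero_rpow hs0]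
    -- weights
    have e4 : ∀ i ∈ S', kap s (p i) (r i) (q i)
        = (p i / P) ^ s * kap s P (r i * P / p i) (q i * P / p i) := by
      intro i hi
      have hpi := hpos i hi
      have h1 := kap_scale (s := s) (p := P) (r := r i * P / p i) (q := q i * P / p i)
        (c := p i / P) (by positivity) hP0
        (div_nonneg (mul_nonneg (hr i (hmem i hi)) hP0) hpi.le)
        (div_nonneg (mul_nonneg (hq i (hmem i hi)) hP0) hpi.le)
      rw [← h1]
      congr 1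
      · field_simp
      · field_simp
      · field_simp
    have hw1 : ∑ i ∈ S', (p i / P) ^ s = 1 := by
      have : ∀ i ∈ S', (p i / P) ^ s = p i ^ s / P ^ s := fun i hi =>
        Real.div_rpow (hpos i hi).le hP0 s
      rw [Finset.sum_congr rfl this, ← Finset.sum_div, e3, div_self hPs.ne']
    have hmean : ∀ (f : ι → ℝ) (F : ℝ), (∀ i ∈ S, 0 ≤ f i) → 0 ≤ F → ∑ i ∈ S, f i ^ s ≤ F ^ s →
        ∑ i ∈ S', (p i / P) ^ s * (f i * P / p i) ≤ F := by
      intro f F hf hF0 hF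
      have hf' : ∀ i ∈ S', 0 ≤ f i * P / p i := fun i hi =>
        div_nonneg (mul_nonneg (hf i (hmem i hi)) hP0) (hpos i hi).le
      have hw' : ∀ i ∈ S', 0 ≤ (p i / P) ^ s := fun i hi =>
        Real.rpow_nonneg (div_nonneg (hpos i hi).le hP0) _
      refine le_of_rpow_le (by linarith : 0 < s)
        (Finset.sum_nonneg fun i hi => mul_nonneg (hw' i hi) (hf' i hi)) hF0 ?_
      refine (Real.rpow_arith_mean_le_arith_mean_rpow S' _ _ hw' hw1 hf' hs1.le).trans ?_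
      refine le_trans ?_ hF
      refine le_trans (Finset.sum_le_sum (g := fun i => f i ^ s) fun i hi => ?_)
        (Finset.sum_le_sum_of_subset_of_nonneg (Finset.filter_subset _ _)
          fun i hi _ => Real.rpow_nonneg (hf i hi) s)
      have hpi := hpos i hi
      rw [← Real.mul_rpow (div_nonneg hpi.le hP0) (hf' i hi)]
      refine le_of_eq ?_
      congr 1
      field_simp
    rw [e1, Finset.sum_congr rfl e4]
    exact kap_jensen S' hs1 hs2 hPpos _ _ _
      (fun i hi => Real.rpow_nonneg (div_nonneg (hpos i hi).le hP0) _) hw1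
      (fun i hi => div_nonneg (mul_nonneg (hr i (hmem i hi)) hP0) (hpos i hi).le)
      (fun i hi => div_nonneg (mul_nonneg (hq i (hmem i hi)) hP0) (hpos i hi).le)
      (hmean r R hr hR0 hR) (hmean q Q hq hQ0 hQ)

/-- Jensen with weights of total mass at most one -/
theorem subprob_jensen {ι : Type*} (S : Finset ι) {s : ℝ} (hs : 1 ≤ s) (w x : ι → ℝ)
    (hw : ∀ i ∈ S, 0 ≤ w i) (hw1 : ∑ i ∈ S, w i ≤ 1) (hx : ∀ i ∈ S, 0 ≤ x i) :
    (∑ i ∈ S, w i * x i) ^ s ≤ ∑ i ∈ S, w i * x i ^ s := by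
  classical
  have hW0 : 0 ≤ ∑ i ∈ S, w i := Finset.sum_nonneg hw
  rcases hW0.eq_or_lt with h0 | hW
  · have hz := (Finset.sum_eq_zero_iff_of_nonneg hw).1 h0.symm
    have e1 : ∑ i ∈ S, w i * x i = 0 := Finset.sum_eq_zero fun i hi => by rw [hz i hi, zero_mul]
    have e3 : ∑ i ∈ S, w i * x i ^ s = 0 :=
      Finset.sum_eq_zero fun i hi => by rw [hz i hi, zero_mul]
    rw [e1, e3, Real.zero_rpow (by linarith)]
  · set W := ∑ i ∈ S, w i with hWd
    have h1 := Real.rpow_arith_mean_le_arith_mean_rpow S (fun i => w i / W) x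
      (fun i hi => div_nonneg (hw i hi) hW.le) (by rw [← Finset.sum_div, div_self hW.ne']) hx hs
    have e1 : ∑ i ∈ S, w i * x i = W * ∑ i ∈ S, w i / W * x i := by
      rw [Finset.mul_sum]
      exact Finset.sum_congr rfl fun i _ => by field_simp
    have e3 : ∑ i ∈ S, w i * x i ^ s = W * ∑ i ∈ S, w i / W * x i ^ s := by
      rw [Finset.mul_sum]
      exact Finset.sum_congr rfl fun i _ => by field_simp
    have h2 : 0 ≤ ∑ i ∈ S, w i / W * x i :=
      Finset.sum_nonneg fun i hi => mul_nonneg (div_nonneg (hw i hi) hW.le) (hx i hi)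
    rw [e1, e3, Real.mul_rpow hW.le h2]
    have h3 : W ^ s ≤ W := by
      have := Real.rpow_le_rpow_of_exponent_ge hW hw1 hs
      simpa using this
    exact mul_le_mul h3 h1 (Real.rpow_nonneg h2 _) hW.le

end Vale.Agent.P358.SC
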