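import Mathlib.Analysis.SpecialFunctions.ImproperIntegrals
import Mathlib.MeasureTheory.Integral.IntegralEqImproper
import Mathlib.Analysis.MeanInequalitiesPow
import Vale.Agent.P358.Bdl.B1

set_option autoImplicit false

/-!
# P358 / H697 / Pow: power traces and the comparison principle

`x ^ s` for `1 < s < 2` as an integral of `x / t - log (1 + x / t)`.
-/

namespace Vale.Agent.P358.SC

open Matrix Real MeasureTheory Set

/-! ### the kernel -/

/-- the kernel `x / t - log (1 + x / t)` -/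
noncomputable def psi (t x : ℝ) : ℝ := x / t - Real.log (1 + x / t)

theorem psi_nonneg {t x : ℝ} (ht : 0 < t) (hx : 0 ≤ x) : 0 ≤ psi t x := by
  unfold psi
  have h1 : 0 < 1 + x / t := by positivity
  have := Real.log_le_sub_one_of_pos h1
  linarith

theorem psi_pos {t x : ℝ} (ht : 0 < t) (hx : 0 < x) : 0 < psi t x := by
  unfold psi
  have h0 : 0 < x / t := by positivity
  have h1 : 0 < 1 + x / t := by positivity
  have := Real.log_lt_sub_one_of_pos h1 (by linarith)
  linarith

theorem psi_le_one {t x : ℝ} (ht : 0 < t) (hx : 0 ≤ x) : psi t x ≤ x / t := by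
  unfold psi
  have h1 : 1 ≤ 1 + x / t := by
    have : 0 ≤ x / t := by positivity
    linarith
  have := Real.log_nonneg h1
  linarith

theorem psi_le_two {t x : ℝ} (ht : 0 < t) (hx : 0 ≤ x) : psi t x ≤ x ^ 2 / (2 * t ^ 2) := by
  unfold psi
  have h0 : 0 ≤ x / t := by positivity
  have h1 := Real.le_log_one_add_of_nonneg h0
  have h2 : x / t - 2 * (x / t) / (x / t + 2) ≤ (x / t) ^ 2 / 2 := by
    rw [sub_le_iff_le_add, div_add_div _ _ (by norm_num) (by positivity), le_div_iff₀ (by positivity)]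
    nlinarith [mul_nonneg h0 (mul_nonneg h0 h0)]
  have h3 : (x / t) ^ 2 / 2 = x ^ 2 / (2 * t ^ 2) := by
    field_simp
  linarith

theorem psi_zero (t : ℝ) : psi t 0 = 0 := by simp [psi]

theorem continuousOn_psi {x : ℝ} (hx : 0 ≤ x) : ContinuousOn (fun t => psi t x) (Ioi 0) := by
  unfold psi
  have h1 : ContinuousOn (fun t : ℝ => x / t) (Ioi 0) :=
    continuousOn_const.div continuousOn_id fun t ht => (Set.mem_Ioi.1 ht).ne'
  refine h1.sub ((continuousOn_const.add h1).log fun t ht => ?_)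
  have ht0 : 0 < t := ht
  have : 0 < 1 + x / t := by positivity
  exact this.ne'

theorem integrableOn_psi {s x : ℝ} (hs1 : 1 < s) (hs2 : s < 2) (hx : 0 ≤ x) :
    IntegrableOn (fun t => psi t x * t ^ (s - 1)) (Ioi 0) := by
  have hmeas : ContinuousOn (fun t => psi t x * t ^ (s - 1)) (Ioi 0) :=
    (continuousOn_psi hx).mul (continuousOn_id.rpow_const fun t ht => Or.inl (Set.mem_Ioi.1 ht).ne')
  rw [← Ioc_union_Ioi_eq_Ioi (zero_le_one' ℝ)]
  refine IntegrableOn.union ?_ ?_
  · have h1 : IntegrableOn (fun t : ℝ => x * t ^ (s - 2)) (Ioc 0 1) := by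
      have := (intervalIntegral.intervalIntegrable_rpow' (a := 0) (b := 1)
        (show -1 < s - 2 by linarith)).const_mul x
      rwa [intervalIntegrable_iff_integrableOn_Ioc_of_le zero_le_one] at this
    refine h1.mono' ?_ ?_
    · exact (hmeas.mono Ioc_subset_Ioi_self).aestronglyMeasurable measurableSet_Ioc
    · filter_upwards [ae_restrict_mem measurableSet_Ioc] with t ht
      have ht0 : 0 < t := ht.1
      rw [Real.norm_of_nonneg (mul_nonneg (psi_nonneg ht0 hx) (Real.rpow_nonneg ht0.le _))]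
      have h2 := psi_le_one ht0 hx
      have h3 : t ^ (s - 1) = t * t ^ (s - 2) := by
        rw [← Real.rpow_one_add' ht0.le (by linarith)]
        congr 1
        ring
      calc psi t x * t ^ (s - 1) ≤ x / t * t ^ (s - 1) :=
            mul_le_mul_of_nonneg_right h2 (Real.rpow_nonneg ht0.le _)
        _ = x * t ^ (s - 2) := by
            rw [h3]
            field_simp
  · have h1 : IntegrableOn (fun t : ℝ => x ^ 2 / 2 * t ^ (s - 3)) (Ioi 1) :=
      (integrableOn_Ioi_rpow_of_lt (show s - 3 < -1 by linarith) one_pos).const_mul _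
    refine h1.mono' ?_ ?_
    · exact (hmeas.mono (Ioi_subset_Ioi zero_le_one)).aestronglyMeasurable measurableSet_Ioi
    · filter_upwards [ae_restrict_mem measurableSet_Ioi] with t ht
      have ht0 : 0 < t := one_pos.trans ht
      rw [Real.norm_of_nonneg (mul_nonneg (psi_nonneg ht0 hx) (Real.rpow_nonneg ht0.le _))]
      have h2 := psi_le_two ht0 hx
      have h3 : t ^ (s - 1) = t ^ 2 * t ^ (s - 3) := by
        rw [← Real.rpow_natCast t 2, ← Real.rpow_add ht0]
        congr 1
        push_cast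
        ring
      calc psi t x * t ^ (s - 1) ≤ x ^ 2 / (2 * t ^ 2) * t ^ (s - 1) :=
            mul_le_mul_of_nonneg_right h2 (Real.rpow_nonneg ht0.le _)
        _ = x ^ 2 / 2 * t ^ (s - 3) := by
            rw [h3]
            field_simp

/-- the constant -/
noncomputable def cs (s : ℝ) : ℝ := ∫ t in Ioi (0 : ℝ), psi t 1 * t ^ (s - 1)

theorem cs_pos {s : ℝ} (hs1 : 1 < s) (hs2 : s < 2) : 0 < cs s := by
  unfold cs
  have h0 : 0 ≤ᵐ[volume.restrict (Ioi (0 : ℝ))] fun t => psi t 1 * t ^ (s - 1) := by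
    filter_upwards [ae_restrict_mem measurableSet_Ioi] with t ht
    exact mul_nonneg (psi_nonneg ht zero_le_one) (Real.rpow_nonneg (le_of_lt ht) _)
  rw [integral_pos_iff_support_of_nonneg_ae h0 (integrableOn_psi hs1 hs2 zero_le_one)]
  have h1 : Ioi (0 : ℝ) ⊆ Function.support fun t => psi t 1 * t ^ (s - 1) := by
    intro t ht
    have ht0 : 0 < t := ht
    exact (mul_pos (psi_pos ht0 one_pos) (Real.rpow_pos_of_pos ht0 _)).ne'
  have h2 : 0 < volume.restrict (Ioi (0 : ℝ)) (Ioi (0 : ℝ)) := by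
    rw [Measure.restrict_apply measurableSet_Ioi, Set.inter_self, Real.volume_Ioi]
    exact ENNReal.zero_lt_top
  exact h2.trans_le (measure_mono h1)

theorem integral_psi {s x : ℝ} (hs1 : 1 < s) (hx : 0 ≤ x) :
    ∫ t in Ioi (0 : ℝ), psi t x * t ^ (s - 1) = cs s * x ^ s := by
  rcases hx.eq_or_lt with h0 | h0
  · rw [← h0, Real.zero_rpow (by linarith), mul_zero]
    simp [psi_zero]
  · have h1 := integral_comp_mul_left_Ioi (fun t => psi t x * t ^ (s - 1)) 0 h0
    rw [mul_zero, smul_eq_mul] at h1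
    have h2 : ∫ t in Ioi (0 : ℝ), psi (x * t) x * (x * t) ^ (s - 1) = x ^ (s - 1) * cs s := by
      unfold cs
      rw [← integral_const_mul]
      refine setIntegral_congr_fun measurableSet_Ioi fun t ht => ?_
      have ht0 : 0 < t := ht
      show psi (x * t) x * (x * t) ^ (s - 1) = x ^ (s - 1) * (psi t 1 * t ^ (s - 1))
      rw [Real.mul_rpow hx ht0.le]
      have : psi (x * t) x = psi t 1 := by
        unfold psi
        have : x / (x * t) = 1 / t := by field_simp
        rw [this]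
      rw [this]
      ring
    rw [h2] at h1
    have h3 : x ^ s = x * x ^ (s - 1) := by
      rw [← Real.rpow_one_add' hx (by linarith)]
      congr 1
      ring
    rw [h3]
    have : ∫ t in Ioi (0 : ℝ), psi t x * t ^ (s - 1) = x * (x ^ (s - 1) * cs s) := by
      rw [h1]
      field_simp
    rw [this]
    ring

/-! ### the comparison principle -/

/-- `F` is a combination of kernels with power sum `h` -/
def HasPow (s : ℝ) (F : ℝ → ℝ) (h : ℝ) : Prop :=
  IntegrableOn (fun t => F t * t ^ (s - 1)) (Ioi 0) ∧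
    ∫ t in Ioi (0 : ℝ), F t * t ^ (s - 1) = cs s * h

theorem hasPow_psi {s x : ℝ} (hs1 : 1 < s) (hs2 : s < 2) (hx : 0 ≤ x) :
    HasPow s (fun t => psi t x) (x ^ s) :=
  ⟨integrableOn_psi hs1 hs2 hx, integral_psi hs1 hx⟩

theorem HasPow.add {s : ℝ} {F F' : ℝ → ℝ} {h h' : ℝ} (H : HasPow s F h) (H' : HasPow s F' h') :
    HasPow s (fun t => F t + F' t) (h + h') := by
  refine ⟨?_, ?_⟩
  · have := H.1.add H'.1
    refine this.congr_fun (fun t _ => ?_) measurableSet_Ioi
    simp only [Pi.add_apply]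
    ring
  · have e : ∀ t : ℝ, (F t + F' t) * t ^ (s - 1) = F t * t ^ (s - 1) + F' t * t ^ (s - 1) :=
      fun t => by ring
    simp only [e]
    rw [integral_add H.1 H'.1, H.2, H'.2]
    ring

theorem HasPow.smul {s : ℝ} {F : ℝ → ℝ} {h : ℝ} (c : ℝ) (H : HasPow s F h) :
    HasPow s (fun t => c * F t) (c * h) := by
  refine ⟨?_, ?_⟩
  · have : IntegrableOn (fun t => c * (F t * t ^ (s - 1))) (Ioi 0) := H.1.const_mul c
    refine this.congr_fun (fun t _ => ?_) measurableSet_Ioi
    simp only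
    ring
  · have e : ∀ t : ℝ, c * F t * t ^ (s - 1) = c * (F t * t ^ (s - 1)) := fun t => by ring
    simp only [e]
    rw [integral_const_mul, H.2]
    ring

theorem HasPow.neg {s : ℝ} {F : ℝ → ℝ} {h : ℝ} (H : HasPow s F h) :
    HasPow s (fun t => - F t) (-h) := by
  have := H.smul (-1)
  simpa using this

theorem HasPow.sub {s : ℝ} {F F' : ℝ → ℝ} {h h' : ℝ} (H : HasPow s F h) (H' : HasPow s F' h') :
    HasPow s (fun t => F t - F' t) (h - h') := by
  have := H.add H'.neg
  simpa [sub_eq_add_neg] using this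

theorem hasPow_zero (s : ℝ) : HasPow s (fun _ => 0) 0 := by
  refine ⟨?_, ?_⟩ <;> simp

theorem HasPow.sum {ι : Type*} {s : ℝ} (S : Finset ι) {F : ι → ℝ → ℝ} {h : ι → ℝ}
    (H : ∀ i ∈ S, HasPow s (F i) (h i)) :
    HasPow s (fun t => ∑ i ∈ S, F i t) (∑ i ∈ S, h i) := by
  classical
  induction S using Finset.induction_on with
  | empty => simpa using hasPow_zero s
  | insert a S ha ih =>
    have h1 := (H a (Finset.mem_insert_self _ _)).add
      (ih fun i hi => H i (Finset.mem_insert_of_mem hi))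
    simpa [Finset.sum_insert ha] using h1

theorem HasPow.congr {s : ℝ} {F F' : ℝ → ℝ} {h : ℝ} (H : HasPow s F h)
    (e : ∀ t : ℝ, 0 < t → F' t = F t) : HasPow s F' h := by
  refine ⟨?_, ?_⟩
  · refine H.1.congr_fun (fun t ht => ?_) measurableSet_Ioi
    show F t * t ^ (s - 1) = F' t * t ^ (s - 1)
    rw [e t ht]
  · rw [← H.2]
    refine setIntegral_congr_fun measurableSet_Ioi fun t ht => ?_
    show F' t * t ^ (s - 1) = F t * t ^ (s - 1)
    rw [e t ht]

/-- **comparison principle** -/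
theorem HasPow.mono {s : ℝ} (hs1 : 1 < s) (hs2 : s < 2) {F F' : ℝ → ℝ} {h h' : ℝ}
    (H : HasPow s F h) (H' : HasPow s F' h') (hF : ∀ t : ℝ, 0 < t → F t ≤ F' t) : h ≤ h' := by
  have h1 : ∫ t in Ioi (0 : ℝ), F t * t ^ (s - 1) ≤ ∫ t in Ioi (0 : ℝ), F' t * t ^ (s - 1) :=
    setIntegral_mono_on H.1 H'.1 measurableSet_Ioi fun t ht =>
      mul_le_mul_of_nonneg_right (hF t ht) (Real.rpow_nonneg (le_of_lt ht) _)
  rw [H.2, H'.2] at h1
  exact le_of_mul_le_mul_left h1 (cs_pos hs1 hs2)

theorem HasPow.unique {s : ℝ} (hs1 : 1 < s) (hs2 : s < 2) {F F' : ℝ → ℝ} {h h' : ℝ}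
    (H : HasPow s F h) (H' : HasPow s F' h') (hF : ∀ t : ℝ, 0 < t → F t = F' t) : h = h' :=
  le_antisymm (H.mono hs1 hs2 H' fun t ht => (hF t ht).le)
    (H'.mono hs1 hs2 H fun t ht => (hF t ht).ge)

end Vale.Agent.P358.SC
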