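import Vale.Agent.P358.H697.Blk

set_option autoImplicit false

/-!
# P358 / H697 / Ten: the induction over the number of uses, weighted `s`-norms
-/

namespace Vale.Agent.P358.SC

open Matrix Real Set
open scoped ComplexOrder

/-- the product weight -/
def wv {n : ℕ} (d : Fin 2 → ℝ) (x : Fin n → Fin 2) : ℝ := ∏ i, d (x i)

theorem wv_cons {n : ℕ} (d : Fin 2 → ℝ) (b : Fin 2) (x : Fin n → Fin 2) :
    wv d (Fin.cons b x : Fin (n + 1) → Fin 2) = d b * wv d x := by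
  simp [wv, Fin.prod_univ_succ]

theorem wv_nonneg {n : ℕ} {d : Fin 2 → ℝ} (hd : ∀ b, 0 ≤ d b) (x : Fin n → Fin 2) :
    0 ≤ wv d x := Finset.prod_nonneg fun i _ => hd _

/-- the diagonal matrix of the weight -/
noncomputable def Dm (d : Fin 2 → ℝ) (n : ℕ) : Matrix (Fin n → Fin 2) (Fin n → Fin 2) ℂ :=
  diagonal fun x => ((wv d x : ℝ) : ℂ)

theorem Dm_conjTranspose (d : Fin 2 → ℝ) (n : ℕ) : (Dm d n)ᴴ = Dm d n := by
  rw [Dm, diagonal_conjTranspose]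
  congr 1
  funext x
  simp

/-- the weighted output -/
noncomputable def TD (γ ν : ℝ) (d : Fin 2 → ℝ) (n : ℕ)
    (X : Matrix (Fin n → Fin 2) (Fin n → Fin 2) ℂ) : Matrix (Fin n → Fin 2) (Fin n → Fin 2) ℂ :=
  Dm d n * tensorPower (gadc γ ν) n X * Dm d n

theorem TD_apply (γ ν : ℝ) (d : Fin 2 → ℝ) (n : ℕ)
    (X : Matrix (Fin n → Fin 2) (Fin n → Fin 2) ℂ) (x y : Fin n → Fin 2) :
    TD γ ν d n X x y = (wv d x : ℂ) * tensorPower (gadc γ ν) n X x y * (wv d y : ℂ) := by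
  rw [TD, Dm, mul_diagonal, diagonal_mul]

theorem TD_posSemidef {γ ν : ℝ} (hγ : γ ∈ Set.Icc (0:ℝ) 1) (hν : ν ∈ Set.Icc (0:ℝ) 1)
    (d : Fin 2 → ℝ) (n : ℕ) {X : Matrix (Fin n → Fin 2) (Fin n → Fin 2) ℂ} (hX : X.PosSemidef) :
    (TD γ ν d n X).PosSemidef := by
  have h := (tensorPower_posSemidef hγ hν n hX).mul_mul_conjTranspose_same (Dm d n)
  rw [Dm_conjTranspose] at h
  exact h

theorem TD_block_posSemidef {γ ν : ℝ} (hγ : γ ∈ Set.Icc (0:ℝ) 1) (hν : ν ∈ Set.Icc (0:ℝ) 1)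
    (d : Fin 2 → ℝ) (n : ℕ)
    {X : Matrix ((Fin n → Fin 2) ⊕ (Fin n → Fin 2)) ((Fin n → Fin 2) ⊕ (Fin n → Fin 2)) ℂ}
    (hX : X.PosSemidef) :
    (fromBlocks (TD γ ν d n X.toBlocks₁₁) (TD γ ν d n X.toBlocks₁₂) (TD γ ν d n X.toBlocks₂₁)
      (TD γ ν d n X.toBlocks₂₂)).PosSemidef := by
  have h := (block_posSemidef hγ hν n hX).mul_mul_conjTranspose_same
    (fromBlocks (Dm d n) 0 0 (Dm d n))
  rw [fromBlocks_conjTranspose, fromBlocks_multiply, fromBlocks_multiply, Dm_conjTranspose] at h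
  simpa [TD] using h

theorem TD_succ (γ ν : ℝ) (d : Fin 2 → ℝ) (n : ℕ)
    (X : Matrix (Fin (n + 1) → Fin 2) (Fin (n + 1) → Fin 2) ℂ) :
    let B := X.submatrix (splitE n).symm (splitE n).symm
    let T := TD γ ν d n
    (TD γ ν d (n + 1) X).submatrix (splitE n).symm (splitE n).symm =
      fromBlocks (((d 0 ^ 2 * (1 - γ * ν) : ℝ) : ℂ) • T B.toBlocks₁₁ +
          ((d 0 ^ 2 * (γ * (1 - ν)) : ℝ) : ℂ) • T B.toBlocks₂₂)
        (((d 0 * d 1 * Real.sqrt (1 - γ) : ℝ) : ℂ) • T B.toBlocks₁₂)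
        (((d 0 * d 1 * Real.sqrt (1 - γ) : ℝ) : ℂ) • T B.toBlocks₂₁)
        (((d 1 ^ 2 * (γ * ν) : ℝ) : ℂ) • T B.toBlocks₁₁ +
          ((d 1 ^ 2 * (1 - γ * (1 - ν)) : ℝ) : ℂ) • T B.toBlocks₂₂) := by
  intro B T
  have h := tensorPower_succ γ ν n X
  simp only at h
  ext u v
  have hu : ∀ u v, ((TD γ ν d (n + 1) X).submatrix (splitE n).symm (splitE n).symm) u v =
      (wv d ((splitE n).symm u) : ℂ) *
        ((tensorPower (gadc γ ν) (n + 1) X).submatrix (splitE n).symm (splitE n).symm) u v *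
        (wv d ((splitE n).symm v) : ℂ) := by
    intro u v
    rw [submatrix_apply, TD_apply, submatrix_apply]
  rw [hu, h]
  rcases u with u | u <;> rcases v with v | v <;>
  simp only [splitE_symm_inl, splitE_symm_inr, wv_cons, fromBlocks_apply₁₁, fromBlocks_apply₁₂,
    fromBlocks_apply₂₁, fromBlocks_apply₂₂, Matrix.add_apply, Matrix.smul_apply, smul_eq_mul, T, B,
    TD_apply] <;> push_cast <;> ring

theorem tp_of_unique {ι : Type} [Fintype ι] [DecidableEq ι] [Unique ι] {s : ℝ}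
    {X : Matrix ι ι ℂ} (hX : X.PosSemidef) : tp s X = X.trace.re ^ s := by
  have h : X.trace.re = hX.1.eigenvalues default := by
    rw [hX.1.trace_eq_sum_eigenvalues]
    simp
  rw [h, tp_eq hX.1]
  simp

/-- **The induction.** -/
theorem nm_TD {s : ℝ} (hs1 : 1 < s) (hs2 : s < 2) {γ ν : ℝ} (hγ : γ ∈ Set.Icc (0:ℝ) 1)
    (hν : ν ∈ Set.Icc (0:ℝ) 1) {d : Fin 2 → ℝ} (hd : ∀ b, 0 ≤ d b) {L : ℝ} (hL : 0 ≤ L)
    (hΛ : ∀ p q : ℝ, 0 ≤ p → 0 ≤ q →
      e2 s (d 0 ^ 2 * ((1 - γ * ν) * p + γ * (1 - ν) * q) +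
          d 1 ^ 2 * (γ * ν * p + (1 - γ * (1 - ν)) * q))
        ((d 0 * d 1) ^ 2 * (((1 - γ * ν) * p + γ * (1 - ν) * q) *
          (γ * ν * p + (1 - γ * (1 - ν)) * q) - (1 - γ) * (p * q))) ≤ (L * (p + q)) ^ s) (n : ℕ) :
    ∀ X : Matrix (Fin n → Fin 2) (Fin n → Fin 2) ℂ, X.PosSemidef →
      nm s (TD γ ν d n X) ≤ L ^ n * X.trace.re := by
  have hs0 : s ≠ 0 := by linarith
  have hspos : 0 < s := by linarith
  induction n with
  | zero =>
    intro X hX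
    have hT := TD_posSemidef hγ hν d 0 hX
    have ht : (TD γ ν d 0 X).trace = X.trace := by
      have h1 : TD γ ν d 0 X = tensorPower (gadc γ ν) 0 X := by
        ext x y
        rw [TD_apply]
        simp [wv]
      rw [h1, trace_tensorPower]
    unfold nm
    rw [tp_of_unique hT, ht, ← Real.rpow_mul (trace_re_nonneg hX), mul_one_div, div_self hs0,
      Real.rpow_one, pow_zero, one_mul]
  | succ n ih =>
    intro X hX
    have hT := TD_posSemidef hγ hν d (n + 1) hX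
    set B := X.submatrix (splitE n).symm (splitE n).symm with hB
    have hBpos : B.PosSemidef := hX.submatrix _
    have hblk := TD_block_posSemidef hγ hν d n hBpos
    have hherm : TD γ ν d n B.toBlocks₂₁ = (TD γ ν d n B.toBlocks₁₂)ᴴ := by
      have h1 := hblk.1
      rw [IsHermitian, fromBlocks_conjTranspose, fromBlocks_inj] at h1
      exact h1.2.2.1.symm
    rw [hherm] at hblk
    have hP0 : B.toBlocks₁₁.PosSemidef := hBpos.submatrix Sum.inl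
    have hQ0 : B.toBlocks₂₂.PosSemidef := hBpos.submatrix Sum.inr
    have hP : (TD γ ν d n B.toBlocks₁₁).PosSemidef := TD_posSemidef hγ hν d n hP0
    have hQ : (TD γ ν d n B.toBlocks₂₂).PosSemidef := TD_posSemidef hγ hν d n hQ0
    have hsq : Real.sqrt (1 - γ) ^ 2 = 1 - γ := Real.sq_sqrt (sub_nonneg.2 hγ.2)
    have g0 := hγ.1
    have g1 := hγ.2
    have n0 := hν.1
    have n1 := hν.2
    have h1 : 0 ≤ 1 - γ * ν := by nlinarith
    have h2 : 0 ≤ γ * (1 - ν) := mul_nonneg g0 (sub_nonneg.2 n1)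
    have h3 : 0 ≤ γ * ν := mul_nonneg g0 n0
    have h4 : 0 ≤ 1 - γ * (1 - ν) := by nlinarith
    have hz := Zs hs1 hs2 (c1 := d 0 ^ 2 * (1 - γ * ν)) (c2 := d 0 ^ 2 * (γ * (1 - ν)))
      (c3 := d 1 ^ 2 * (γ * ν)) (c4 := d 1 ^ 2 * (1 - γ * (1 - ν)))
      (l := d 0 * d 1 * Real.sqrt (1 - γ)) (by positivity) (by positivity) (by positivity)
      (by positivity) (mul_nonneg (mul_nonneg (hd 0) (hd 1)) (Real.sqrt_nonneg _))
      (by rw [mul_pow, hsq]; ring) hblk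
    have hout := TD_succ γ ν d n X
    simp only at hout
    rw [← hB, hherm] at hout
    rw [← hout, tp_submatrix] at hz
    set p := nm s (TD γ ν d n B.toBlocks₁₁) with hp
    set q := nm s (TD γ ν d n B.toBlocks₂₂) with hq
    have hp0 : 0 ≤ p := nm_nonneg hP
    have hq0 : 0 ≤ q := nm_nonneg hQ
    have hz2 := hΛ p q hp0 hq0
    have hz3 : tp s (TD γ ν d (n + 1) X) ≤ (L * (p + q)) ^ s := by
      refine hz.trans (le_trans (le_of_eq ?_) hz2)
      congr 1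
      · ring
      · unfold dt
        rw [mul_pow (d 0 * d 1) (Real.sqrt (1 - γ)), hsq]
        ring
    rw [← nm_pow hs0 hT] at hz3
    have hz4 := le_of_rpow_le hspos (nm_nonneg hT) (mul_nonneg hL (add_nonneg hp0 hq0)) hz3
    refine hz4.trans ?_
    rw [trace_split X, pow_succ, mul_comm (L ^ n) L, mul_assoc]
    refine mul_le_mul_of_nonneg_left ?_ hL
    have e1 := ih _ hP0
    have e3 := ih _ hQ0
    rw [mul_add]
    exact add_le_add e1 e3

/-- the trace power form -/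
theorem tp_TD {s : ℝ} (hs1 : 1 < s) (hs2 : s < 2) {γ ν : ℝ} (hγ : γ ∈ Set.Icc (0:ℝ) 1)
    (hν : ν ∈ Set.Icc (0:ℝ) 1) {d : Fin 2 → ℝ} (hd : ∀ b, 0 ≤ d b) {L : ℝ} (hL : 0 ≤ L)
    (hΛ : ∀ p q : ℝ, 0 ≤ p → 0 ≤ q →
      e2 s (d 0 ^ 2 * ((1 - γ * ν) * p + γ * (1 - ν) * q) +
          d 1 ^ 2 * (γ * ν * p + (1 - γ * (1 - ν)) * q))
        ((d 0 * d 1) ^ 2 * (((1 - γ * ν) * p + γ * (1 - ν) * q) *
          (γ * ν * p + (1 - γ * (1 - ν)) * q) - (1 - γ) * (p * q))) ≤ (L * (p + q)) ^ s) (n : ℕ)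
    {X : Matrix (Fin n → Fin 2) (Fin n → Fin 2) ℂ} (hX : IsState X) :
    tp s (TD γ ν d n X) ≤ (L ^ n) ^ s := by
  have hs0 : s ≠ 0 := by linarith
  have h := nm_TD hs1 hs2 hγ hν hd hL hΛ n X hX.1
  rw [hX.2] at h
  simp only [Complex.one_re, mul_one] at h
  rw [← nm_pow hs0 (TD_posSemidef hγ hν d n hX.1)]
  exact Real.rpow_le_rpow (nm_nonneg (TD_posSemidef hγ hν d n hX.1)) h (by linarith)

end Vale.Agent.P358.SC
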