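import Vale.Agent.P358.H697.Pow

set_option autoImplicit false

/-!
# P358 / H697 / Tr: power traces of Hermitian matrices
-/

namespace Vale.Agent.P358.SC

open Matrix Real Set
open scoped ComplexOrder

variable {ι κ : Type} [Fintype ι] [DecidableEq ι] [Fintype κ] [DecidableEq κ]

/-- `Tr X ^ s` from the eigenvalues -/
noncomputable def tp (s : ℝ) (X : Matrix ι ι ℂ) : ℝ :=
  if h : X.IsHermitian then ∑ i, (h.eigenvalues i) ^ s else 0

theorem tp_eq {s : ℝ} {X : Matrix ι ι ℂ} (h : X.IsHermitian) :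
    tp s X = ∑ i, (h.eigenvalues i) ^ s := dif_pos h

theorem tp_eq_roots {s : ℝ} {A : Matrix ι ι ℂ} (hA : A.IsHermitian) :
    tp s A = (A.charpoly.roots.map (fun z => z.re ^ s)).sum := by
  rw [tp, dif_pos hA, hA.roots_charpoly_eq_eigenvalues, Multiset.map_map]
  rfl

theorem tp_eq_of_charpoly {s : ℝ} {A : Matrix ι ι ℂ} {B : Matrix κ κ ℂ} (hA : A.IsHermitian)
    (hB : B.IsHermitian) (h : A.charpoly = B.charpoly) : tp s A = tp s B := by
  rw [tp_eq_roots hA, tp_eq_roots hB, h]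

theorem tp_submatrix {s : ℝ} (e : κ ≃ ι) (A : Matrix ι ι ℂ) :
    tp s (A.submatrix e e) = tp s A := by
  have hiff : (A.submatrix e e).IsHermitian ↔ A.IsHermitian := by
    constructor
    · intro h
      have h2 := h.submatrix e.symm
      simpa using h2
    · intro h
      exact h.submatrix e
  by_cases hA : A.IsHermitian
  · refine tp_eq_of_charpoly (hiff.2 hA) hA ?_
    have := charpoly_reindex e.symm A
    simpa [reindex_apply] using this
  · rw [tp, dif_neg (fun h => hA (hiff.1 h)), tp, dif_neg hA]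

/-- power trace from any diagonalization -/
theorem tp_of_conj {s : ℝ} {A U : Matrix ι ι ℂ} (hU : Uᴴ * U = 1) (d : ι → ℝ)
    (h : A = U * diagonal (fun i => (d i : ℂ)) * Uᴴ) :
    tp s A = ∑ i, (d i) ^ s := by
  have hD : (diagonal (fun i => (d i : ℂ))).IsHermitian := by
    rw [Matrix.IsHermitian, diagonal_conjTranspose]
    congr 1
    funext i
    simp
  have hA : A.IsHermitian := by
    rw [h]
    exact isHermitian_mul_mul_conjTranspose U hD
  have hchar : A.charpoly = (diagonal (fun i => (d i : ℂ))).charpoly := by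
    rw [h, charpoly_mul_comm, ← Matrix.mul_assoc, hU, Matrix.one_mul]
  rw [tp_eq_roots hA, hchar, charpoly_diagonal, Polynomial.roots_prod]
  · simp only [Polynomial.roots_X_sub_C, Multiset.bind_singleton, Multiset.map_map,
      Finset.sum_map_val]
    simp
  · exact Finset.prod_ne_zero_iff.2 fun i _ => Polynomial.X_sub_C_ne_zero _

theorem tp_diagonal {s : ℝ} (d : ι → ℝ) :
    tp s (diagonal (fun i => (d i : ℂ))) = ∑ i, (d i) ^ s :=
  tp_of_conj (U := 1) (by simp) d (by simp)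

theorem tp_nonneg {s : ℝ} {X : Matrix ι ι ℂ} (hX : X.PosSemidef) : 0 ≤ tp s X := by
  rw [tp_eq hX.1]
  exact Finset.sum_nonneg fun i _ => Real.rpow_nonneg (hX.eigenvalues_nonneg i) _

theorem tp_conj {s : ℝ} {U : Matrix ι ι ℂ} (hU' : Uᴴ * U = 1)
    {X : Matrix ι ι ℂ} (hX : X.IsHermitian) : tp s (U * X * Uᴴ) = tp s X := by
  obtain ⟨V, hV, hV', h⟩ := exists_unitary_diag hX
  rw [tp_of_conj (A := U * X * Uᴴ) (U := U * V) ?_ hX.eigenvalues ?_, tp_eq hX]
  · rw [conjTranspose_mul, Matrix.mul_assoc, ← Matrix.mul_assoc Uᴴ, hU', Matrix.one_mul, hV]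
  · rw [conjTranspose_mul]
    conv_lhs => rw [h]
    simp only [Matrix.mul_assoc]

theorem tp_smul {s : ℝ} {X : Matrix ι ι ℂ} (hX : X.PosSemidef) {c : ℝ} (hc : 0 ≤ c) :
    tp s ((c : ℂ) • X) = c ^ s * tp s X := by
  obtain ⟨V, hV, hV', h⟩ := exists_unitary_diag hX.1
  rw [tp_of_conj (A := (c : ℂ) • X) (U := V) hV (fun i => c * hX.1.eigenvalues i) ?_, tp_eq hX.1,
    Finset.mul_sum]
  · exact Finset.sum_congr rfl fun i _ => Real.mul_rpow hc (hX.eigenvalues_nonneg i)
  · conv_lhs => rw [h]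
    rw [← Matrix.smul_mul, ← Matrix.mul_smul, ← diagonal_smul]
    congr 3
    funext i
    simp

theorem tp_zero {s : ℝ} (hs : s ≠ 0) : tp s (0 : Matrix ι ι ℂ) = 0 := by
  have := tp_diagonal (ι := ι) (s := s) (fun _ => 0)
  simpa [Real.zero_rpow hs] using this

/-- **Peierls inequality** for powers -/
theorem peierls {s : ℝ} (hs : 1 ≤ s) {A : Matrix ι ι ℂ} (hA : A.PosSemidef) {U : Matrix ι ι ℂ}
    (hU : U * Uᴴ = 1) (hU' : Uᴴ * U = 1) :
    ∑ i, ((Uᴴ * A * U) i i).re ^ s ≤ tp s A := by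
  obtain ⟨V, hV, hV', h⟩ := exists_unitary_diag hA.1
  rw [tp_eq hA.1]
  set lam := hA.1.eigenvalues with hlam
  set W : Matrix ι ι ℂ := Uᴴ * V with hW
  have e : Uᴴ * A * U = W * diagonal (fun j => (lam j : ℂ)) * Wᴴ := by
    rw [hW, conjTranspose_mul, conjTranspose_conjTranspose]
    conv_lhs => rw [h]
    simp only [Matrix.mul_assoc]
  have hWW : W * Wᴴ = 1 := by
    rw [hW, conjTranspose_mul, conjTranspose_conjTranspose, Matrix.mul_assoc,
      ← Matrix.mul_assoc V, hV', Matrix.one_mul, hU']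
  have hWW' : Wᴴ * W = 1 := by
    rw [hW, conjTranspose_mul, conjTranspose_conjTranspose, Matrix.mul_assoc,
      ← Matrix.mul_assoc U, hU, Matrix.one_mul, hV]
  have hi : ∀ i, ((Uᴴ * A * U) i i).re = ∑ j, ‖W i j‖ ^ 2 * lam j := by
    intro i
    rw [e, conj_diag_apply, Complex.ofReal_re]
  simp only [hi]
  calc ∑ i, (∑ j, ‖W i j‖ ^ 2 * lam j) ^ s ≤ ∑ i, ∑ j, ‖W i j‖ ^ 2 * lam j ^ s := by
        refine Finset.sum_le_sum fun i _ => ?_
        exact Real.rpow_arith_mean_le_arith_mean_rpow _ _ _ (fun j _ => by positivity)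
          (row_norm_sq hWW i) (fun j _ => hA.eigenvalues_nonneg j) hs
    _ = ∑ j, (∑ i, ‖W i j‖ ^ 2) * lam j ^ s := by
        simp only [Finset.sum_mul]
        exact Finset.sum_comm
    _ = ∑ j, lam j ^ s := Finset.sum_congr rfl fun j _ => by rw [col_norm_sq hWW', one_mul]

theorem sum_diag_le {s : ℝ} (hs : 1 ≤ s) {A : Matrix ι ι ℂ} (hA : A.PosSemidef) :
    ∑ i, (A i i).re ^ s ≤ tp s A := by
  have h := peierls hs hA (U := 1) (by simp) (by simp)
  simpa using h

/-- convexity of the power trace -/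
theorem tp_convex {s : ℝ} (hs : 1 ≤ s) {A B : Matrix ι ι ℂ} (hA : A.PosSemidef)
    (hB : B.PosSemidef) {a b : ℝ} (ha : 0 ≤ a) (hb : 0 ≤ b) (hab : a + b = 1) :
    tp s ((a : ℂ) • A + (b : ℂ) • B) ≤ a * tp s A + b * tp s B := by
  have hC : ((a : ℂ) • A + (b : ℂ) • B).PosSemidef :=
    (hA.smul (by exact_mod_cast ha)).add (hB.smul (by exact_mod_cast hb))
  obtain ⟨C, hCd⟩ : ∃ C, C = (a : ℂ) • A + (b : ℂ) • B := ⟨_, rfl⟩
  rw [← hCd] at hC ⊢
  obtain ⟨V, hV, hV', h⟩ := exists_unitary_diag hC.1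
  set lam := hC.1.eigenvalues with hlam
  have e : Vᴴ * C * V = diagonal (fun j => (lam j : ℂ)) := by
    conv_lhs => rw [h]
    calc Vᴴ * (V * diagonal (fun j => (lam j : ℂ)) * Vᴴ) * V
        = (Vᴴ * V) * diagonal (fun j => (lam j : ℂ)) * (Vᴴ * V) := by
          simp only [Matrix.mul_assoc]
      _ = _ := by rw [hV]; simp
  have hi : ∀ i, lam i = a * ((Vᴴ * A * V) i i).re + b * ((Vᴴ * B * V) i i).re := by
    intro i
    have h1 : (Vᴴ * C * V) i i = (lam i : ℂ) := by rw [e, diagonal_apply_eq]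
    have h2 : Vᴴ * C * V = (a : ℂ) • (Vᴴ * A * V) + (b : ℂ) • (Vᴴ * B * V) := by
      rw [hCd]
      simp [Matrix.mul_add, Matrix.add_mul]
    rw [h2] at h1
    have h3 := congrArg Complex.re h1
    simp only [Matrix.add_apply, Matrix.smul_apply, smul_eq_mul, Complex.add_re,
      Complex.re_ofReal_mul, Complex.ofReal_re] at h3
    exact h3.symm
  have hA0 : ∀ i, 0 ≤ ((Vᴴ * A * V) i i).re := fun i => by
    have h1 := hA.mul_mul_conjTranspose_same Vᴴ
    rw [conjTranspose_conjTranspose] at h1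
    exact (Complex.le_def.1 (h1.diag_nonneg (i := i))).1
  have hB0 : ∀ i, 0 ≤ ((Vᴴ * B * V) i i).re := fun i => by
    have h1 := hB.mul_mul_conjTranspose_same Vᴴ
    rw [conjTranspose_conjTranspose] at h1
    exact (Complex.le_def.1 (h1.diag_nonneg (i := i))).1
  rw [tp_eq hC.1]
  calc ∑ i, lam i ^ s ≤ ∑ i, (a * ((Vᴴ * A * V) i i).re ^ s + b * ((Vᴴ * B * V) i i).re ^ s) := by
        refine Finset.sum_le_sum fun i _ => ?_
        rw [hi i]
        have := (convexOn_rpow hs).2 (Set.mem_Ici.2 (hA0 i)) (Set.mem_Ici.2 (hB0 i)) ha hb hab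
        simpa [smul_eq_mul] using this
    _ = a * ∑ i, ((Vᴴ * A * V) i i).re ^ s + b * ∑ i, ((Vᴴ * B * V) i i).re ^ s := by
        rw [Finset.sum_add_distrib, Finset.mul_sum, Finset.mul_sum]
    _ ≤ a * tp s A + b * tp s B := by
        gcongr
        · exact peierls hs hA hV' hV
        · exact peierls hs hB hV' hV

/-- the kernel sum of a matrix -/
theorem hasPow_matrix {s : ℝ} (hs1 : 1 < s) (hs2 : s < 2) {X : Matrix ι ι ℂ}
    (hX : X.PosSemidef) :
    HasPow s (fun t => X.trace.re / t - (ld X t - Fintype.card ι * Real.log t)) (tp s X) := by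
  have h := HasPow.sum Finset.univ (F := fun i t => psi t (hX.1.eigenvalues i))
    (h := fun i => hX.1.eigenvalues i ^ s)
    (fun i _ => hasPow_psi hs1 hs2 (hX.eigenvalues_nonneg i))
  rw [← tp_eq hX.1] at h
  refine h.congr fun t ht => ?_
  obtain ⟨U, h1, h2, h3⟩ := exists_diag' hX.1
  have e : X.trace.re = ∑ i, hX.1.eigenvalues i := by
    rw [hX.1.trace_eq_sum_eigenvalues]
    simp
  have e2 : ld X t = ∑ i, Real.log (t + hX.1.eigenvalues i) := by
    unfold ld
    conv_lhs => rw [h3]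
    rw [det_smul_one_add_diag h1, Complex.ofReal_re, Real.log_prod]
    intro i _
    have := hX.eigenvalues_nonneg i
    positivity
  rw [e, e2, Finset.sum_div]
  have e3 : (Fintype.card ι : ℝ) * Real.log t = ∑ _i : ι, Real.log t := by simp
  rw [e3, ← Finset.sum_sub_distrib, ← Finset.sum_sub_distrib]
  refine Finset.sum_congr rfl fun i _ => ?_
  have hl := hX.eigenvalues_nonneg i
  unfold psi
  rw [← Real.log_div (by positivity) (by positivity)]
  congr 2
  field_simp

end Vale.Agent.P358.SC
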